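import Vale.Agent.P352.G.Chg
import Vale.Agent.P352.H746.V6
import Vale.Agent.P352.H993.Lin

/-!
# The on-shell dilaton constraint is equivalent to the additivity of the second moments
-/

set_option linter.all false

noncomputable section

open MeasureTheory Filter Topology Set
open scoped ContDiff ComplexConjugate

namespace Vale.Agent.P352.H846.GC

open GF (Ix V Fn Fld Theory bas eta o improve bar)
open H755 H496 H15 H246 H846
open H746 (Lf)

variable {D : Type*} [NormedAddCommGroup D] [InnerProductSpace ℂ D]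
variable {Q Q₂ : GF.Theory D} {T t : Ix → Ix → GF.Fld D} {J : Ix → GF.Fld D}
  {A : (V → V) → D → D} {K : V → D → D} {B : GF.Fld D}

/-- **The generators are additive.** -/
theorem addK_of_nc (hT : Q.IsStress T)
    (h : NullCharges Q T J A K) (hE : ∀ A, Q.fld A → Q₂.fld A)
    (ht : ∀ m n, Q₂.fld (t m n)) (hC : ∀ a, IsNull a → Chg Q₂ t (cK a) (K a)) {a b c d : V}
    (ha : IsNull a) (hb : IsNull b) (hc : IsNull c) (hd : IsNull d) (e : a + b = c + d) (v : D) :
    K a v + K b v = K c v + K d v := by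
  have add : ∀ {a : V}, IsNull a → ∀ v w, K a (v + w) = K a v + K a w :=
    fun ha => GMain.C_add (fun _ v w ha => nc_symm hT h ha v w) ha
  have smul : ∀ {a : V}, IsNull a → ∀ (c : ℂ) v, K a (c • v) = c • K a v :=
    fun ha => GMain.C_smul (fun _ v w ha => nc_symm hT h ha v w) ha
  obtain ⟨z, hz⟩ : ∃ z : D → D, ∀ v, z v = K a v + K b v - K c v - K d v := ⟨_, fun _ => rfl⟩
  have hcom : ∀ B f v, Q.fld B → GF.IsTest f → HasCompactSupport f → z (B f v) = B f (z v) := by
    intro B f v hB hf hfc
    rw [hz, hz, chg4 hE ht hC ha hb hc hd e hB hf hfc v]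
    obtain ⟨F, rfl⟩ := exists_fl hf
    have s : ∀ v w, B (fl F) (v - w) = B (fl F) v - B (fl F) w := by
      intro v w
      rw [sub_eq_add_neg, ← neg_one_smul ℂ w, Vale.Agent.P352.fld_add hB,
        Vale.Agent.P352.fld_smul hB, neg_one_smul, sub_eq_add_neg]
    rw [s, s, Vale.Agent.P352.fld_add hB]
  have hvac : z Q.vac = 0 := by
    rw [hz, GMain.K_vac hT h ha, GMain.K_vac hT h hb, GMain.K_vac hT h hc, GMain.K_vac hT h hd]
    simp
  have zadd : ∀ v w, z (v + w) = z v + z w := by
    intro v w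
    rw [hz, hz, hz, add ha, add hb, add hc, add hd]
    abel
  have zsmul : ∀ (k : ℂ) v, z (k • v) = k • z v := by
    intro k v
    rw [hz, hz, smul ha, smul hb, smul hc, smul hd]
    module
  have hX : ∀ X X', Al Q Set.univ X X' → z (X Q.vac) = 0 := by
    intro X X' hX
    induction hX with
    | one => exact hvac
    | add X X' Y Y' _ _ h1 h2 => rw [zadd, h1, h2, add_zero]
    | smul k X X' _ h1 => rw [zsmul, h1, smul_zero]
    | fld A' B' g X X' hA _ _ hg _ h1 =>
      rw [hcom A' g _ hA hg.1 hg.2.1, h1]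
      obtain ⟨F, rfl⟩ := exists_fl hg.1
      have := Vale.Agent.P352.fld_smul hA F 0 (0 : D)
      simpa using this
  have hsym : ∀ v w, inner ℂ (z v) w = inner ℂ v (z w) := by
    intro v w
    rw [hz, hz, inner_sub_left, inner_sub_left, inner_add_left, inner_sub_right, inner_sub_right,
      inner_add_right, nc_symm hT h ha v w, nc_symm hT h hb v w, nc_symm hT h hc v w, nc_symm hT h hd v w]
  have hzero : z v = 0 := by
    have hd' := dense_gen_univ Q
    refine hd'.eq_zero_of_inner_left (𝕜 := ℂ) fun w hw => ?_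
    obtain ⟨X, X', hXX, rfl⟩ := hw
    rw [hsym, hX X X' hXX, inner_zero_right]
  rw [hz] at hzero
  have : K a v + K b v - (K c v + K d v) = 0 := by
    rw [← hzero]
    abel
  exact sub_eq_zero.1 this


/-- **The on-shell dilaton constraint implies additivity of the second moments.** -/
theorem addK_of_tr (hT : Q.IsStress T) (hJ : IsVirial Q T J) (h : NullCharges Q T J A K)
    (ht : H121.TrNull T) (hF : NoFlux T J) : ∀ a b c d v, IsNull a → IsNull b → IsNull c →
    IsNull d → a + b = c + d → K a v + K b v = K c v + K d v := by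
  intro a b c d v ha hb hc hd e
  obtain ⟨C, h1, h2, h3⟩ := H121.charge hT hJ h ht
  have key : ∀ a b, IsNull a → IsNull b → GF.mdot a b = 1 → ∀ p q Y, H846.YB Q a p q Y →
      ∀ F, H121.Cop Q A K a b (Y F) = 0 := fun a b ha hb hab => H731.key hT hJ h ht ha hb hab
  have hN : G.NGen Q J A K C := by
    refine GMain.ngen hT hJ h h1 h2 (fun a m n f v ha hf => ?_) (fun a m f v ha hf => ?_)
    · obtain ⟨b, hb, hab⟩ := H755.exists_dual ha
      rw [H746.C_eq hT hJ h ht h1 ha hb hab, H746.C_eq hT hJ h ht h1 ha hb hab]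
      exact cop_ten hT hJ h ht ha hb hab (key a b ha hb hab) (H746.isTen_T hT) ![m, n] hf v
    · obtain ⟨b, hb, hab⟩ := H755.exists_dual ha
      rw [H746.C_eq hT hJ h ht h1 ha hb hab, H746.C_eq hT hJ h ht h1 ha hb hab]
      exact cop_ten hT hJ h ht ha hb hab (key a b ha hb hab) (H746.isTen_J hJ) ![m] hf v
  obtain ⟨Q', e1, e2, e3⟩ := G.H731.main_L hT hJ hN (Or.inl h.mom)
  obtain ⟨Q₂, g1, g2, g3, g4, g5, g6⟩ := exists_stress hT e1 e2 e3
    fun Q'' hQ => H746.isStress_enl hQ hT
  have hC : ∀ a, IsNull a → Chg Q₂ (improve T (Lf J K H15.a0 H15.b0)) (cK a) (K a) :=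
    fun a ha => chg_cK hT hJ h hF h1 h2 g3.1
      (fun a b f v hp hf => G.H731.lf_agree hT hJ hN (Or.inl h.mom) npr0 hp hf v) g6 ha
  exact addK_of_nc hT h g1.fld (fun m n => Q₂.bose_fld _ (g4.bose m n)) hC ha hb hc hd e v

/-- **Given null-plane charges without flux at infinity, the on-shell dilaton constraint holds if
and only if the second moments are additive.** -/
theorem tr_iff_add (hT : Q.IsStress T) (hJ : IsVirial Q T J) (h : NullCharges Q T J A K)
    (hF : NoFlux T J) : H121.TrNull T ↔ ∀ a b c d v, IsNull a → IsNull b → IsNull c →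
    IsNull d → a + b = c + d → K a v + K b v = K c v + K d v :=
  ⟨fun ht => addK_of_tr hT hJ h ht hF, fun hK => H993.trNull_of_add hT hJ h hK⟩

end Vale.Agent.P352.H846.GC

end
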