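import Vale.Agent.P352.G.Defs
import Vale.Agent.P352.H846.Al0

/-!
# The bracket commutes with the operators localized on the other side of a null hyperplane
-/

set_option linter.all false

noncomputable section

open MeasureTheory Filter Topology Set
open scoped ContDiff ComplexConjugate

namespace Vale.Agent.P352.G.H846

open Vale.Agent.P352.H846 Vale.Agent.P352.G

open GF (Ix V Fn Fld bas eta o bar)
open H755 H496 H15 H246
open Vale.Agent.P352.H15

variable {D : Type*} [NormedAddCommGroup D] [InnerProductSpace ℂ D]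
variable {Q : GF.Theory D} {T : Ix → Ix → GF.Fld D} {J : Ix → GF.Fld D}
  {A : (V → V) → D → D} {K C : V → D → D} {P P' : D → D} {O : Set V}

lemma lo_inr (hP : LocOp Q O P P') (v w : D) : inner ℂ w (P v) = inner ℂ (P' w) v := by
  rw [← inner_conj_symm, hP.adj, inner_conj_symm]

lemma lo_add (hP : LocOp Q O P P') (u v : D) : P (u + v) = P u + P v :=
  ext_inner_left ℂ fun w => by
    rw [lo_inr hP, inner_add_right, inner_add_right, lo_inr hP, lo_inr hP]

lemma lo_smul (hP : LocOp Q O P P') (c : ℂ) (v : D) : P (c • v) = c • P v :=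
  ext_inner_left ℂ fun w => by
    rw [lo_inr hP, inner_smul_right, inner_smul_right, lo_inr hP]

lemma lo_sub (hP : LocOp Q O P P') (u v : D) : P (u - v) = P u - P v :=
  ext_inner_left ℂ fun w => by
    rw [lo_inr hP, inner_sub_right, inner_sub_right, lo_inr hP, lo_inr hP]

lemma lo_sum (hP : LocOp Q O P P') (g : Ix → D) : P (∑ m, g m) = ∑ m, P (g m) :=
  ext_inner_left ℂ fun w => by
    rw [lo_inr hP, inner_sum, inner_sum]
    exact Finset.sum_congr rfl fun m _ => (lo_inr hP _ _).symm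

lemma tsupport_ofReal (F : V → ℝ) : tsupport (fun x => (F x : ℂ)) ⊆ tsupport F := by
  apply closure_mono
  intro x hx h
  apply hx
  simp [h]

lemma tst_in {F : V → ℝ} (hF : Tst F) {W : Set V} (h : tsupport F ⊆ W) :
    In W (fun x => (F x : ℂ)) :=
  ⟨hF.isTest, hF.2.of_isClosed_subset (isClosed_tsupport _) (tsupport_ofReal F),
    (tsupport_ofReal F).trans h⟩

lemma lo_comm (hP : LocOp Q O P P') {B : GF.Fld D} (hB : Q.bose B) {f : Fn}
    (hf : In (cc O) f) (v : D) : P (B f v) = B f (P v) :=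
  hP.comm B f v (by first | exact hB | exact Q.bose_fld B hB) hf

/-- one component of the stress tensor -/
lemma comp_zero (hT : Q.IsStress T) (hP : LocOp Q O P P') {f : Fn} (hf : In (cc O) f)
    (hO : IsCompact O) {B B' : GF.Fld D} (hB : Q.bose B)
    (hadj : ∀ v w, inner ℂ (B f v) w = inner ℂ v (B' (bar f) w)) {F : V → ℝ} (hF : Tst F)
    (hFs : tsupport F ⊆ cc (tsupport f) ∪ cc O) (m n : Ix) (v w : D) :
    inner ℂ (P' w) (T m n (fun x => (F x : ℂ)) (B f v)) -
      inner ℂ (P' (B' (bar f) w)) (T m n (fun x => (F x : ℂ)) v) -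
      inner ℂ w (T m n (fun x => (F x : ℂ)) (P (B f v))) +
      inner ℂ (B' (bar f) w) (T m n (fun x => (F x : ℂ)) (P v)) = 0 := by
  obtain ⟨F1, F2, hF1, hF2, hs1, hs2, hsum⟩ := exists_split_real hF
    (isOpen_cc hf.2.1.isCompact) (isOpen_cc hO) hFs
  have hb := hT.bose m n
  have hfT := Q.bose_fld _ hb
  have hlin : ∀ v, T m n (fun x => (F x : ℂ)) v =
      T m n (fun x => (F1 x : ℂ)) v + T m n (fun x => (F2 x : ℂ)) v := by
    intro v
    have h1 := Q.lin (T m n) (fun x => (F1 x : ℂ)) (fun x => (F2 x : ℂ)) 1 v hfT hF1.isTest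
      hF2.isTest
    rw [one_smul] at h1
    rw [← h1]
    congr 1
    funext x
    rw [hsum x]
    push_cast
    ring
  have hinr : ∀ v w, inner ℂ w (B f v) = inner ℂ (B' (bar f) w) v := fun v w => by
    rw [← inner_conj_symm, hadj, inner_conj_symm]
  have hPB : ∀ v, P (B f v) = B f (P v) := fun v => lo_comm hP hB hf v
  have hTB : ∀ v, T m n (fun x => (F1 x : ℂ)) (B f v) = B f (T m n (fun x => (F1 x : ℂ)) v) := by
    intro v
    refine Q.loc (T m n) B _ f v hb (Q.bose_fld _ hB) hF1.isTest hf.1 fun x hx y hy => ?_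
    have h1 := hs1 (tsupport_ofReal F1 hx) y hy
    rw [mdx] at h1 ⊢
    simp only [Pi.sub_apply] at h1
    linarith
  have hTP : ∀ v, P (T m n (fun x => (F2 x : ℂ)) v) = T m n (fun x => (F2 x : ℂ)) (P v) :=
    fun v => lo_comm hP hb (tst_in hF2 hs2) v
  simp only [hlin, inner_add_right]
  have e1 : inner ℂ (P' w) (T m n (fun x => (F1 x : ℂ)) (B f v)) =
      inner ℂ (P' (B' (bar f) w)) (T m n (fun x => (F1 x : ℂ)) v) := by
    rw [hTB, ← lo_inr hP, hPB, hinr, lo_inr hP]
  have e2 : inner ℂ w (T m n (fun x => (F1 x : ℂ)) (P (B f v))) =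
      inner ℂ (B' (bar f) w) (T m n (fun x => (F1 x : ℂ)) (P v)) := by
    rw [hPB, hTB, hinr]
  have e3 : inner ℂ (P' w) (T m n (fun x => (F2 x : ℂ)) (B f v)) =
      inner ℂ w (T m n (fun x => (F2 x : ℂ)) (P (B f v))) := by
    rw [← lo_inr hP, hTP]
  have e4 : inner ℂ (P' (B' (bar f) w)) (T m n (fun x => (F2 x : ℂ)) v) =
      inner ℂ (B' (bar f) w) (T m n (fun x => (F2 x : ℂ)) (P v)) := by
    rw [← lo_inr hP, hTP]
  rw [e1, e2, e3, e4]
  ring

/-- the cut off tensor fields -/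
lemma ctf_tst {a b : V} (haa : GF.mdot a a = 0) (hbb : GF.mdot b b = 0) (hab : GF.mdot a b = 1)
    {κ : V → ℝ} (hκ : Tst κ) {ψ : ℝ → ℝ} (hψ : Tst ψ) {R : ℝ} (hR : 1 ≤ R) {g : V → ℝ}
    (hg : ContDiff ℝ ∞ g) : Tst fun x => g x * ctf a b κ 0 ψ R x := by
  have h1 := cut_tst haa hbb hab hκ hψ hR
  have h2 := tst_mul h1 hg
  have h3 : (fun x => g x * ctf a b κ 0 ψ R x) =
      fun x => cut a b κ R x * ψ (GF.mdot a x) * g x := by
    funext x
    unfold ctf
    rw [sub_zero]
    ring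
  rw [h3]
  exact h2

lemma ctf_supp {a b : V} {κ : V → ℝ} {ψ : ℝ → ℝ} {R : ℝ} {g : V → ℝ} {x : V}
    (hx : x ∈ tsupport fun x => g x * ctf a b κ 0 ψ R x) : GF.mdot a x ∈ tsupport ψ := by
  have hc : IsClosed {x : V | GF.mdot a x ∈ tsupport ψ} :=
    (isClosed_tsupport ψ).preimage (contDiff_mdot a).continuous
  refine closure_minimal ?_ hc hx
  intro y hy
  apply subset_tsupport
  intro h
  apply hy
  show g y * ctf a b κ 0 ψ R y = 0
  unfold ctf
  rw [h, mul_zero, mul_zero]

lemma mdr (a : V) (t : ℝ) (y : V) : GF.mdot a (t • y) = t * GF.mdot a y := by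
  rw [mdx, mdx]
  simp only [Pi.smul_apply, smul_eq_mul]
  ring

lemma mdl (a : V) (t : ℝ) (y : V) : GF.mdot (t • a) y = t * GF.mdot a y := by
  rw [mdx, mdx]
  simp only [Pi.smul_apply, smul_eq_mul]
  ring

lemma int_four {f1 f2 f3 f4 : ℝ → ℂ} (h1 : Integrable f1) (h2 : Integrable f2) (h3 : Integrable f3)
    (h4 : Integrable f4) : ∫ u, (f1 u - f2 u - f3 u + f4 u) =
      (∫ u, f1 u) - (∫ u, f2 u) - (∫ u, f3 u) + ∫ u, f4 u := by
  have e1 : ∫ u, (f1 u - f2 u - f3 u + f4 u) = (∫ u, (f1 u - f2 u - f3 u)) + ∫ u, f4 u :=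
    integral_add ((h1.sub h2).sub h3) h4
  have e2 : ∫ u, (f1 u - f2 u - f3 u) = (∫ u, (f1 u - f2 u)) - ∫ u, f3 u :=
    integral_sub (h1.sub h2) h3
  have e3 : ∫ u, (f1 u - f2 u) = (∫ u, f1 u) - ∫ u, f2 u := integral_sub h1 h2
  rw [e1, e2, e3]

lemma contDiff_sq (a b : V) : ContDiff ℝ ∞ fun x : V => H15.sq a b x := by
  have h1 := contDiff_mdot a
  have h2 := contDiff_mdot b
  have h3 : ContDiff ℝ ∞ fun x : V => GF.mdot x x := by
    simp only [mdx]
    fun_prop
  unfold H15.sq
  exact ((contDiff_const.mul h1).mul h2).sub h3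

/-- the stress tensor smeared with the second moment -/
lemma sm_zero (hT : Q.IsStress T) (hP : LocOp Q O P P') {f : Fn} (hf : In (cc O) f)
    (hO : IsCompact O) {B B' : GF.Fld D} (hB : Q.bose B)
    (hadj : ∀ v w, inner ℂ (B f v) w = inner ℂ v (B' (bar f) w)) {F : Ix → Ix → V → ℝ}
    (hF : ∀ m n, Tst (F m n)) (hFs : ∀ m n, tsupport (F m n) ⊆ cc (tsupport f) ∪ cc O)
    (v w : D) :
    inner ℂ (P' w) (sm T F (B f v)) - inner ℂ (P' (B' (bar f) w)) (sm T F v) -
      inner ℂ w (sm T F (P (B f v))) + inner ℂ (B' (bar f) w) (sm T F (P v)) = 0 := by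
  unfold sm
  simp only [inner_sum, ← Finset.sum_sub_distrib, ← Finset.sum_add_distrib]
  exact Finset.sum_eq_zero fun m _ => Finset.sum_eq_zero fun n _ =>
    comp_zero hT hP hf hO hB hadj (hF m n) (hFs m n) m n v w

/-- the velocity fields in the translation law of `K` -/
lemma isSim_zero : IsSim 0 (fun _ : V => (0 : V)) :=
  ⟨0, fun _ => 0, by simp, by simp⟩

lemma isSim_const (c : V) : IsSim 0 (fun _ : V => c) :=
  ⟨c, fun _ => 0, by simp, by simp⟩

lemma isSim_bst (a b : V) : IsSim (-2) (fun z => -(2:ℝ) • z + (2 * GF.mdot b z) • a -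
    (2 * GF.mdot a z) • b) := by
  refine ⟨0, fun m n => 2 * (eta m * b m) * a n - 2 * (eta m * a m) * b n, ?_, ?_⟩
  · intro m n
    have h : ∀ k : Ix, eta k * eta k = 1 := fun k => by
      unfold GF.eta
      split_ifs <;> norm_num
    have h1 := h m
    have h2 := h n
    have e1 : eta n * (2 * (eta m * b m) * a n - 2 * (eta m * a m) * b n) =
      -(eta m * (2 * (eta n * b n) * a m - 2 * (eta n * a n) * b m)) := by ring
    exact e1
  · intro z n
    simp only [Pi.zero_apply, Pi.add_apply, Pi.sub_apply, Pi.smul_apply, smul_eq_mul, zero_add,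
      GF.mdot]
    rw [Finset.mul_sum, Finset.mul_sum, Finset.sum_mul, Finset.sum_mul, add_sub_assoc,
      ← Finset.sum_sub_distrib]
    congr 1
    exact Finset.sum_congr rfl fun m _ => by ring

lemma A_zero (h : Rep Q A) (v : D) : A (fun _ => 0) v = 0 := by
  have h1 := h.add 0 0 1 _ _ v isSim_zero isSim_zero
  simp only [smul_zero, add_zero, Complex.ofReal_one, one_smul] at h1
  exact left_eq_add.mp h1

lemma K_shift (h : NGen Q J A K C) {a b : V} (ha : IsNull a) (hb : IsNull b)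
    (hab : GF.mdot a b = 1) (u : ℝ) (v : D) :
    Q.U 1 GF.one (u • b) (K a (Q.U 1 GF.one (-(u • b)) v)) = K a v +
      (u : ℂ) • (A (fun z => -(2:ℝ) • z + (2 * GF.mdot b z) • a - (2 * GF.mdot a z) • b) v -
        (2 : ℂ) • C a v) +
      ((u : ℂ) ^ 2) • A (fun _ => (2:ℝ) • b) v := by
  rw [h.tra a (u • b) v ha]
  have eC : ((2 * GF.mdot a (u • b) : ℝ) : ℂ) = 2 * (u : ℂ) := by
    rw [mdr, hab, mul_one]; push_cast; ring
  rw [eC]
  have e1 : (fun z => -(2 * GF.mdot a (u • b)) • z + (2 * GF.mdot (u • b) z) • a -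
      (2 * GF.mdot a z) • (u • b) + cK a (u • b)) =
      fun z => (fun z : V => (fun _ : V => (0 : V)) z + u • ((fun z => -(2:ℝ) • z + (2 * GF.mdot b z) • a -
        (2 * GF.mdot a z) • b) z)) z + (u ^ 2) • (fun _ : V => (2:ℝ) • b) z := by
    funext z
    unfold cK
    have hbb := hb.1
    have e2 : GF.mdot a (u • b) = u := by rw [mdr, hab, mul_one]
    have e3 : GF.mdot (u • b) z = u * GF.mdot b z := mdl b u z
    have e4 : GF.mdot (u • b) (u • b) = 0 := by
      rw [mdr, mdl, hbb]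
      ring
    rw [e2, e3, e4]
    simp only [zero_add, zero_smul, sub_zero]
    module
  rw [e1, h.add (0 + u * (-2)) 0 (u ^ 2) _ _ v ?_ (isSim_const _),
    h.add 0 (-2) u _ _ v isSim_zero (isSim_bst a b), A_zero h.toRep, zero_add]
  · push_cast
    module
  · obtain ⟨c, w, hw, hX⟩ := isSim_bst a b
    refine ⟨u • c, fun m => u • w m, fun m n => ?_, fun z n => ?_⟩
    · simp only [Pi.smul_apply, smul_eq_mul]
      linear_combination u * hw m n
    · have hXz := hX z n
      simp only at hXz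
      simp only [zero_add]
      rw [Pi.smul_apply, hXz]
      simp only [Pi.smul_apply, smul_eq_mul, mul_add, Finset.mul_sum]
      congr 1
      · ring
      · exact Finset.sum_congr rfl fun m _ => by ring

/-- the commutator of `K` with a field commutes with `P` -/
theorem core (hT : Q.IsStress T) (h : NGen Q J A K C) (hm : Mom Q T K) {a : V} (ha : IsNull a)
    (hO : IsCompact O) (hP : LocOp Q O P P') {f : Fn} (hf : In (cc O) f) (hs : Sepa a f O)
    {B B' : GF.Fld D} (hB : Q.bose B)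
    (hadj : ∀ v w, inner ℂ (B f v) w = inner ℂ v (B' (bar f) w)) (v : D) :
    P (K a (B f v)) - P (B f (K a v)) = K a (B f (P v)) - B f (K a (P v)) := by
  obtain ⟨b, hb, hab⟩ := exists_dual ha
  obtain ⟨κ, hκ, hκ1⟩ := exists_cutf
  obtain ⟨α, β, hαβ, hgap⟩ := exists_gap ha hf hs
  have hinr : ∀ v w, inner ℂ w (B f v) = inner ℂ (B' (bar f) w) v := fun v w => by
    rw [← inner_conj_symm, hadj, inner_conj_symm]
  have hPB : ∀ v, P (B f v) = B f (P v) := fun v => lo_comm hP hB hf v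
  refine ext_inner_left ℂ fun w => ?_
  set A1 : D → D := fun v => A (fun z => -(2:ℝ) • z + (2 * GF.mdot b z) • a -
    (2 * GF.mdot a z) • b) v - (2 : ℂ) • C a v with hA1
  set A2 : D → D := A (fun _ => (2:ℝ) • b) with hA2
  -- the moments
  have hmom : ∀ (ψ : ℝ → ℝ), Tst ψ → ∀ v w, Tendsto (fun R => inner ℂ w (sm T (fun m n x =>
      eta m * a m * (eta n * a n) * H15.sq a b x * ctf a b κ 0 ψ R x) v)) atTop
      (𝓝 (∫ u, (ψ u : ℂ) * (inner ℂ w (K a v) + u * inner ℂ w (A1 v) +
        u ^ 2 * inner ℂ w (A2 v)))) := by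
    intro ψ hψ v w
    have h1 := hm a b κ 0 ψ v w ⟨ha, hb, hab, hκ, hκ1, hψ⟩
    have h2 : (fun u : ℝ => (ψ u : ℂ) * inner ℂ w (Q.U 1 GF.one (u • b)
        (K a (Q.U 1 GF.one (-(u • b)) v)))) =
        fun u : ℝ => (ψ u : ℂ) * (inner ℂ w (K a v) + u * inner ℂ w (A1 v) +
        u ^ 2 * inner ℂ w (A2 v)) := by
      funext u
      rw [K_shift h ha hb hab, inner_add_right, inner_add_right, inner_smul_right,
        inner_smul_right]
    rw [h2] at h1
    exact h1
  have hint : ∀ (ψ : ℝ → ℝ), Tst ψ → ∀ c0 c1 c2 : ℂ,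
      Integrable fun u : ℝ => (ψ u : ℂ) * (c0 + u * c1 + u ^ 2 * c2) := by
    intro ψ hψ c0 c1 c2
    have h1 : Continuous fun u : ℝ => (ψ u : ℂ) * (c0 + u * c1 + u ^ 2 * c2) := by
      have := hψ.1.continuous
      fun_prop
    refine h1.integrable_of_hasCompactSupport ?_
    exact (hψ.2.comp_left (g := fun r : ℝ => (r : ℂ)) (by simp)).mul_right
  have key := poly_zero (c0 := inner ℂ (P' w) (K a (B f v)) - inner ℂ (P' (B' (bar f) w)) (K a v) -
      inner ℂ w (K a (P (B f v))) + inner ℂ (B' (bar f) w) (K a (P v)))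
    (c1 := inner ℂ (P' w) (A1 (B f v)) - inner ℂ (P' (B' (bar f) w)) (A1 v) -
      inner ℂ w (A1 (P (B f v))) + inner ℂ (B' (bar f) w) (A1 (P v)))
    (c2 := inner ℂ (P' w) (A2 (B f v)) - inner ℂ (P' (B' (bar f) w)) (A2 v) -
      inner ℂ w (A2 (P (B f v))) + inner ℂ (B' (bar f) w) (A2 (P v))) hαβ ?_
  · have e1 : inner ℂ (P' w) (K a (B f v)) = inner ℂ w (P (K a (B f v))) := (lo_inr hP _ _).symm
    have e2 : inner ℂ (P' (B' (bar f) w)) (K a v) = inner ℂ w (P (B f (K a v))) := by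
      rw [← lo_inr hP, ← hinr, hPB]
    have e3 : inner ℂ w (K a (P (B f v))) = inner ℂ w (K a (B f (P v))) := by rw [hPB]
    have e4 : inner ℂ (B' (bar f) w) (K a (P v)) = inner ℂ w (B f (K a (P v))) := (hinr _ _).symm
    rw [e1, e2, e3, e4] at key
    rw [inner_sub_right, inner_sub_right]
    linear_combination key
  · intro ψ hψ hsψ
    have t1 := hmom ψ hψ (B f v) (P' w)
    have t2 := hmom ψ hψ v (P' (B' (bar f) w))
    have t3 := hmom ψ hψ (P (B f v)) w
    have t4 := hmom ψ hψ (P v) (B' (bar f) w)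
    have t5 := ((t1.sub t2).sub t3).add t4
    have t6 : Tendsto (fun _ : ℝ => (0 : ℂ)) atTop (𝓝 0) := tendsto_const_nhds
    have t7 := t6.congr' (f₂ := fun R =>
      inner ℂ (P' w) (sm T (fun m n x => eta m * a m * (eta n * a n) * H15.sq a b x *
        ctf a b κ 0 ψ R x) (B f v)) -
      inner ℂ (P' (B' (bar f) w)) (sm T (fun m n x => eta m * a m * (eta n * a n) * H15.sq a b x *
        ctf a b κ 0 ψ R x) v) -
      inner ℂ w (sm T (fun m n x => eta m * a m * (eta n * a n) * H15.sq a b x *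
        ctf a b κ 0 ψ R x) (P (B f v))) +
      inner ℂ (B' (bar f) w) (sm T (fun m n x => eta m * a m * (eta n * a n) * H15.sq a b x *
        ctf a b κ 0 ψ R x) (P v))) ?_
    · have t8 := tendsto_nhds_unique t5 t7
      rw [← t8, ← int_four (hint ψ hψ _ _ _) (hint ψ hψ _ _ _) (hint ψ hψ _ _ _) (hint ψ hψ _ _ _)]
      refine integral_congr_ae (Eventually.of_forall fun u => ?_)
      simp only
      ring
    · filter_upwards [eventually_ge_atTop (1:ℝ)] with R hR
      refine (sm_zero hT hP hf hO hB hadj (fun m n => ?_) (fun m n => ?_) v w).symm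
      · exact ctf_tst ha.1 hb.1 hab hκ hψ hR (contDiff_const.mul (contDiff_sq a b))
      · intro z hz
        have hz2 := hsψ (ctf_supp hz)
        exact hgap z hz2.1 hz2.2

lemma in_mul {W : Set V} {f g : Fn} (hf : In W f) (hg : ContDiff ℝ ∞ g) :
    In W fun x => g x * f x := by
  obtain ⟨⟨F, hF⟩, hc, hs⟩ := hf
  have hFs : ContDiff ℝ ∞ f := by rw [← hF]; exact F.smooth ⊤
  have hcs : HasCompactSupport fun x => g x * f x := hc.mul_left
  have h1 : tsupport (fun x => g x * f x) ⊆ tsupport f := by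
    apply closure_mono
    intro x hx hfx
    apply hx
    simp [hfx]
  exact ⟨⟨hcs.toSchwartzMap (hg.mul hFs), rfl⟩, hcs, h1.trans hs⟩

lemma in_add {W : Set V} {f g : Fn} (hf : In W f) (hg : In W g) (c : ℂ) :
    In W fun x => f x + c * g x := by
  obtain ⟨⟨F, hF⟩, hc, hs⟩ := hf
  obtain ⟨⟨G, hG⟩, hc', hs'⟩ := hg
  have h1 : tsupport (fun x => f x + c * g x) ⊆ tsupport f ∪ tsupport g := by
    refine closure_minimal ?_ ((isClosed_tsupport f).union (isClosed_tsupport g))
    intro x hx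
    by_contra h
    simp only [mem_union, not_or] at h
    exact hx (by
      show f x + c * g x = 0
      rw [image_eq_zero_of_notMem_tsupport h.1, image_eq_zero_of_notMem_tsupport h.2]
      ring)
  refine ⟨⟨F + c • G, ?_⟩, ?_, h1.trans (union_subset hs hs')⟩
  · funext x
    rw [← hF, ← hG]
    rfl
  · exact (hc.isCompact.union hc'.isCompact).of_isClosed_subset (isClosed_tsupport _) h1

lemma pd_fd {f : Fn} (hf : ContDiff ℝ (⊤ : ℕ∞) f) (m : Ix) :
    GF.pd m f = fun x => fderiv ℝ f x (bas m 1) := by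
  funext x
  have h1 : (fun t : ℝ => f fun n => x n + bas m t n) = fun t : ℝ => f (x + t • bas m 1) := by
    funext t
    congr 1
    funext n
    simp [bas]
  unfold GF.pd
  rw [h1]
  have h2 : HasDerivAt (fun t : ℝ => x + t • (bas m 1 : V)) (bas m 1) 0 := by
    simpa using ((hasDerivAt_id (0 : ℝ)).smul_const (bas m 1 : V)).const_add x
  have h3 : HasFDerivAt f (fderiv ℝ f (x + (0 : ℝ) • (bas m 1 : V)))
      (x + (0 : ℝ) • (bas m 1 : V)) :=
    (hf.differentiable (by simp) _).hasFDerivAt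
  have h4 := (h3.comp_hasDerivAt (0 : ℝ) h2).deriv
  rw [zero_smul, add_zero] at h4
  exact h4

lemma in_pd {W : Set V} {f : Fn} (hf : In W f) (m : Ix) : In W (GF.pd m f) := by
  obtain ⟨⟨F, hF⟩, hc, hs⟩ := hf
  have hFs : ContDiff ℝ (⊤ : ℕ∞) f := by rw [← hF]; exact F.smooth ⊤
  rw [pd_fd hFs m]
  have h1 : ContDiff ℝ (⊤ : ℕ∞) fun x => fderiv ℝ f x (bas m 1) :=
    (hFs.fderiv_right (m := (⊤ : ℕ∞)) (by simp)).clm_apply contDiff_const
  have h2 : tsupport (fun x => fderiv ℝ f x (bas m 1)) ⊆ tsupport f := by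
    refine (closure_minimal ?_ (isClosed_tsupport f))
    intro x hx
    by_contra h
    have h3 : x ∉ tsupport (fderiv ℝ f) := fun h4 => h (tsupport_fderiv_subset ℝ h4)
    apply hx
    show fderiv ℝ f x (bas m 1) = 0
    rw [image_eq_zero_of_notMem_tsupport h3]
    rfl
  have h3 : HasCompactSupport fun x => fderiv ℝ f x (bas m 1) :=
    hc.of_isClosed_subset (isClosed_tsupport _) h2
  exact ⟨⟨h3.toSchwartzMap h1, rfl⟩, h3, h2.trans hs⟩

lemma in_zero (W : Set V) : In W fun _ => (0 : ℂ) := by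
  refine ⟨⟨0, rfl⟩, HasCompactSupport.zero, ?_⟩
  rw [show (fun _ : V => (0 : ℂ)) = 0 from rfl, tsupport, Function.support_zero, closure_empty]
  exact empty_subset _

lemma in_sum {W : Set V} {g : Ix → Fn} (hg : ∀ i, In W (g i)) : In W fun x => ∑ i, g i x := by
  simp only [Fin.sum_univ_four]
  have h1 := in_add (in_add (in_add (hg 0) (hg 1) 1) (hg 2) 1) (hg 3) 1
  simpa only [one_mul] using h1

lemma contDiff_cK (a : V) (n : Ix) : ContDiff ℝ ∞ fun x : V => cK a x n := by
  have h1 := contDiff_mdot a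
  have h3 : ContDiff ℝ ∞ fun x : V => GF.mdot x x := by
    simp only [mdx]
    fun_prop
  unfold cK
  simp only [Pi.sub_apply, Pi.smul_apply, smul_eq_mul]
  exact ((contDiff_const.mul h1).mul (contDiff_apply ℝ ℝ n)).sub (h3.mul contDiff_const)

lemma in_kd {W : Set V} {f : Fn} (hf : In W f) (a : V) (Δ : ℝ) : In W (kd a Δ f) := by
  have h1 : In W (ky a f) := by
    have h2 := in_sum fun n => in_mul (in_pd hf n)
      (Complex.ofRealCLM.contDiff.comp (contDiff_cK a n))
    have h3 := in_add (in_zero W) h2 (-1)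
    refine (congrArg (In W) ?_).mp h3
    funext x
    show (0 : ℂ) + -1 * ∑ n, (cK a x n : ℂ) * GF.pd n f x = -∑ n, (cK a x n : ℂ) * GF.pd n f x
    ring
  have h2 : In W fun x => (((8 - 2 * Δ) * GF.mdot a x : ℝ) : ℂ) * f x :=
    in_mul hf (Complex.ofRealCLM.contDiff.comp (contDiff_const.mul (contDiff_mdot a)))
  have h3 := in_add h1 h2 (-1)
  refine (congrArg (In W) ?_).mp h3
  funext x
  show ky a f x + -1 * ((((8 - 2 * Δ) * GF.mdot a x : ℝ) : ℂ) * f x) =
    ky a f x - (((8 - 2 * Δ) * GF.mdot a x : ℝ) : ℂ) * f x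
  ring

lemma K_add (h : NGen Q J A K C) {a : V} (ha : IsNull a) (v w : D) :
    K a (v + w) = K a v + K a w :=
  ext_inner_left ℂ fun z => by
    rw [← h.symm a z _ ha, inner_add_right, inner_add_right, h.symm a z _ ha, h.symm a z _ ha]

lemma K_smul (h : NGen Q J A K C) {a : V} (ha : IsNull a) (c : ℂ) (v : D) :
    K a (c • v) = c • K a v :=
  ext_inner_left ℂ fun z => by
    rw [← h.symm a z _ ha, inner_smul_right, inner_smul_right, h.symm a z _ ha]

lemma K_sum (h : NGen Q J A K C) {a : V} (ha : IsNull a) (g : Ix → D) :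
    K a (∑ m, g m) = ∑ m, K a (g m) := by
  simp only [Fin.sum_univ_four, K_add h ha]

/-- The bracket `bk J K a c f` commutes with the operators `P` that commute with the commutators
of `K a` and `J m f`. -/
theorem al_of (hJ : IsVirial Q T J) (h : NGen Q J A K C) {a : V}
    (ha : IsNull a) {O : Set V} {P P' : D → D} (hP : LocOp Q O P P') {f : Fn}
    (hf : In (cc O) f) (hc : ∀ m v, P (K a (J m f v)) - P (J m f (K a v)) =
      K a (J m f (P v)) - J m f (K a (P v))) (c : V) (v : D) :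
    P (bk J K a c f v) = bk J K a c f (P v) := by
  have hb := hJ.bose
  have hct : ∀ (c : V) (g : Fn) (v : D), In (cc O) g → P (ct J c g v) = ct J c g (P v) := by
    intro c g v hg
    unfold ct
    rw [lo_sum hP]
    exact Finset.sum_congr rfl fun m _ => by rw [lo_smul hP, lo_comm hP (hb m) hg]
  have h1 : P (K a (ct J c f v)) - P (ct J c f (K a v)) =
      K a (ct J c f (P v)) - ct J c f (K a (P v)) := by
    unfold ct
    rw [K_sum h ha, K_sum h ha, lo_sum hP, lo_sum hP, ← Finset.sum_sub_distrib,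
      ← Finset.sum_sub_distrib]
    refine Finset.sum_congr rfl fun m _ => ?_
    rw [K_smul h ha, K_smul h ha, lo_smul hP, lo_smul hP, ← smul_sub, ← smul_sub, hc m v]
  have h2 : ∀ m, P (J m (fun x => (x m : ℂ) * f x) v) = J m (fun x => (x m : ℂ) * f x) (P v) :=
    fun m => lo_comm hP (hb m) (in_mul hf (Complex.ofRealCLM.contDiff.comp
      (contDiff_apply ℝ ℝ m))) v
  have h3 : In (cc O) fun x => (GF.mdot c x : ℂ) * f x :=
    in_mul hf (Complex.ofRealCLM.contDiff.comp (contDiff_mdot c))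
  unfold bk
  rw [lo_add hP, lo_sub hP, h1, lo_smul hP, lo_sub hP, lo_add hP, lo_smul hP, lo_smul hP,
    lo_sum hP, hct _ _ _ (in_kd hf a 3), hct _ _ _ h3]
  congr 3
  congr 1
  congr 1
  exact Finset.sum_congr rfl fun m _ => by rw [lo_smul hP, h2 m]

/-- The bracket `bk J K a c f` commutes with the operators localized on the other side of a
null hyperplane orthogonal to `a`. -/
theorem al (hT : Q.IsStress T) (hJ : IsVirial Q T J) (h : NGen Q J A K C) (hm : Mom Q T K) {a : V}
    (ha : IsNull a) {O : Set V} (hO : IsCompact O) {P P' : D → D} (hP : LocOp Q O P P') {f : Fn}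
    (hf : In (cc O) f) (hs : Sepa a f O) (c : V) (v : D) :
    P (bk J K a c f v) = bk J K a c f (P v) :=
  al_of hJ h ha hP hf (fun m v => core hT h hm ha hO hP hf hs (hJ.bose m)
    (fun v w => hJ.herm m f v w hf.1) v) c v

/-- If the operators `K a` act locally, the bracket `bk J K a c f` commutes with the operators
localized in the causal complement of `f`. -/
theorem al_act (hJ : IsVirial Q T J) (h : NGen Q J A K C) (hm : Act Q J K) {a : V}
    (ha : IsNull a) {O : Set V} (hO : IsCompact O) {P P' : D → D} (hP : LocOp Q O P P') {f : Fn}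
    (hf : In (cc O) f) (c : V) (v : D) :
    P (bk J K a c f v) = bk J K a c f (P v) :=
  al_of hJ h ha hP hf (fun m v => by
    have h1 := hm a m O P P' f v ha hO hP hf
    rwa [lo_sub hP] at h1) c v

end Vale.Agent.P352.G.H846

end
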