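import Vale.Agent.P352.G.Defs
import Vale.Agent.P352.H746.Flow3
import Vale.Agent.P352.G.KLin
import Vale.Agent.P352.H993.TrDefs

set_option linter.all false

noncomputable section

open MeasureTheory SchwartzMap Complex Filter Topology
open scoped SchwartzMap ComplexConjugate ENNReal LineDeriv

namespace Vale.Agent.P352.G.H746

open Vale.Agent.P352.H746 Vale.Agent.P352.G

open GF (Ix V Fn Sch ev pd bar sim bas o)
open H246 H496 H755 H15
open Vale.Agent.P352.H15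
open UniformSpace (Completion)

/-! ### The operators on test functions -/

/-- `a·∂` -/
def dL (a : V) : 𝓢(Mink, ℂ) →L[ℂ] 𝓢(Mink, ℂ) :=
  ∑ m, (a m : ℂ) • LineDeriv.lineDerivOpCLM ℂ 𝓢(Mink, ℂ) (eb m)

/-- multiplication by `a·x` -/
def axL (a : V) : 𝓢(Mink, ℂ) →L[ℂ] 𝓢(Mink, ℂ) := ∑ m, ((GF.eta m * a m : ℝ) : ℂ) • Xm m

/-- multiplication by `x·x` -/
def xxL : 𝓢(Mink, ℂ) →L[ℂ] 𝓢(Mink, ℂ) := ∑ m, (GF.eta m : ℂ) • (Xm m).comp (Xm m)

/-- the Euler operator -/
def euL : 𝓢(Mink, ℂ) →L[ℂ] 𝓢(Mink, ℂ) :=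
  ∑ n, (Xm n).comp (LineDeriv.lineDerivOpCLM ℂ 𝓢(Mink, ℂ) (eb n))

/-- `kd` as a continuous linear map -/
def kdL (a : V) (Δ : ℝ) : 𝓢(Mink, ℂ) →L[ℂ] 𝓢(Mink, ℂ) :=
  xxL.comp (dL a) - (2 : ℂ) • (axL a).comp euL - ((8 - 2 * Δ : ℝ) : ℂ) • axL a

lemma kdL_eq (a : V) (Δ : ℝ) (f : 𝓢(Mink, ℂ)) : kdL a Δ f = H993.kdS a Δ f := by
  have h1 : dL a f = H993.dS a f := by
    unfold dL H993.dS
    rw [ContinuousLinearMap.sum_apply]
    rfl
  have h2 : ∀ f, axL a f = H993.axS a f := by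
    intro f
    unfold axL H993.axS
    rw [ContinuousLinearMap.sum_apply]
    rfl
  have h3 : ∀ f, xxL f = H993.xxS f := by
    intro f
    unfold xxL H993.xxS
    rw [ContinuousLinearMap.sum_apply]
    rfl
  have h4 : euL f = Eu f := by
    unfold euL Eu
    rw [ContinuousLinearMap.sum_apply]
    rfl
  show xxL (dL a f) - (2 : ℂ) • axL a (euL f) - ((8 - 2 * Δ : ℝ) : ℂ) • axL a f = _
  rw [h1, h4, h3, h2, h2]
  rfl

lemma fl_kdL (a : V) (Δ : ℝ) (f : 𝓢(Mink, ℂ)) : fl (kdL a Δ f) = kd a Δ (fl f) := by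
  rw [kdL_eq, H993.fl_kdS]

lemma fl_Xm (m : Ix) (f : 𝓢(Mink, ℂ)) : fl (Xm m f) = fun x => (x m : ℂ) * fl f x := by
  funext x
  rw [fl_apply, Xm_apply, fl_apply]

lemma fl_axL (a : V) (f : 𝓢(Mink, ℂ)) :
    fl (axL a f) = fun x => (GF.mdot a x : ℂ) * fl f x := by
  funext x
  have h2 : axL a f = H993.axS a f := by
    unfold axL H993.axS
    rw [ContinuousLinearMap.sum_apply]
    rfl
  rw [h2, fl_apply, H993.axS_apply, fl_apply]

variable {D : Type*} [NormedAddCommGroup D] [InnerProductSpace ℂ D]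
variable {Q : GF.Theory D} {T : Ix → Ix → GF.Fld D} {J : Ix → GF.Fld D}
variable {A : (V → V) → D → D} {K C : V → D → D}

lemma ct_fld (hJ : IsVirial Q T J) (k : Ix) : Q.fld (J k) := Q.bose_fld _ (hJ.bose k)

/-- `c·J` as a continuous linear map -/
def ctL (hJ : IsVirial Q T J) (c : V) (v : D) : 𝓢(Mink, ℂ) →L[ℂ] D :=
  ∑ m, ((GF.eta m * c m : ℝ) : ℂ) • fcl (ct_fld hJ m) v

lemma ctL_apply (hJ : IsVirial Q T J) (c : V) (v : D) (F : 𝓢(Mink, ℂ)) :
    ctL hJ c v F = ct J c (fl F) v := by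
  unfold ctL ct
  rw [ContinuousLinearMap.sum_apply]
  rfl

/-- `x·J` as a continuous linear map -/
def xjL (hJ : IsVirial Q T J) (v : D) : 𝓢(Mink, ℂ) →L[ℂ] D :=
  ∑ b, (GF.eta b : ℂ) • (fcl (ct_fld hJ b) v).comp (Xm b)

lemma xjL_apply (hJ : IsVirial Q T J) (v : D) (F : 𝓢(Mink, ℂ)) :
    xjL hJ v F = ∑ b, (GF.eta b : ℂ) • J b (fun x => (x b : ℂ) * fl F x) v := by
  unfold xjL
  rw [ContinuousLinearMap.sum_apply]
  refine Finset.sum_congr rfl fun b _ => ?_
  rw [← fl_Xm]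
  rfl

/-- the local part of the bracket -/
def lpL (hJ : IsVirial Q T J) (a c : V) (v : D) : 𝓢(Mink, ℂ) →L[ℂ] D :=
  (ctL hJ c v).comp (kdL a 3) + ((2 * GF.mdot a c : ℝ) : ℂ) • xjL hJ v -
    (2 : ℂ) • (ctL hJ a v).comp (axL c)

lemma bk_eq (hJ : IsVirial Q T J) (a c : V) (F : 𝓢(Mink, ℂ)) (v : D) :
    bk J K a c (fl F) v = K a (ctL hJ c v F) - ctL hJ c (K a v) F + I • lpL hJ a c v F := by
  have h1 : lpL hJ a c v F = ctL hJ c v (kdL a 3 F) + ((2 * GF.mdot a c : ℝ) : ℂ) • xjL hJ v F -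
      (2 : ℂ) • ctL hJ a v (axL c F) := rfl
  rw [h1]
  unfold bk
  rw [ctL_apply, ctL_apply, ctL_apply, ctL_apply, fl_kdL, xjL_apply, fl_axL]

lemma K_zero (h : NGen Q J A K C) {a : V} (ha : IsNull a) : K a 0 = 0 := by
  have := K_smul h ha 0 (0 : D)
  simpa using this

lemma K_sub (h : NGen Q J A K C) {a : V} (ha : IsNull a) (v w : D) :
    K a (v - w) = K a v - K a w := by
  rw [sub_eq_add_neg, K_add h ha, ← neg_one_smul ℂ w, K_smul h ha, neg_one_smul,
    ← sub_eq_add_neg]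

/-- the bracket as a continuous linear map -/
def bkL (hJ : IsVirial Q T J) (h : NGen Q J A K C) {a : V} (ha : IsNull a) (c : V) (v : D) :
    𝓢(Mink, ℂ) →L[ℂ] D where
  toFun F := K a (ctL hJ c v F)
  map_add' F G := by rw [map_add, K_add h ha]
  map_smul' r F := by rw [map_smul, K_smul h ha]; rfl
  cont := by
    have := barrelled_schwartz
    set Ψ : 𝓢(Mink, ℂ) →ₗ[ℂ] D :=
      { toFun := fun F => K a (ctL hJ c v F)
        map_add' := fun F G => by rw [map_add, K_add h ha]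
        map_smul' := fun r F => by rw [map_smul, K_smul h ha]; rfl } with hΨ
    have hc : Continuous Ψ := by
      refine cont_of_weak Ψ (Z := Set.univ) dense_univ fun z _ => ?_
      have e : (fun F : 𝓢(Mink, ℂ) => inner ℂ z (Ψ F)) =
          fun F => inner ℂ (K a z) (ctL hJ c v F) := by
        funext F
        show inner ℂ z (K a (ctL hJ c v F)) = _
        rw [h.symm a _ _ ha]
      rw [e]
      exact continuous_const.inner (ctL hJ c v).continuous
    exact hc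

/-- the bracket as a continuous linear map -/
def bkC (hJ : IsVirial Q T J) (h : NGen Q J A K C) {a : V} (ha : IsNull a) (c : V) (v : D) :
    𝓢(Mink, ℂ) →L[ℂ] D := bkL hJ h ha c v - ctL hJ c (K a v) + I • lpL hJ a c v

lemma bkC_apply (hJ : IsVirial Q T J) (h : NGen Q J A K C) {a : V} (ha : IsNull a) (c : V)
    (v : D) (F : 𝓢(Mink, ℂ)) : bkC hJ h ha c v F = bk J K a c (fl F) v := by
  rw [bk_eq hJ]
  rfl

theorem bk_lin (hJ : IsVirial Q T J) (h : NGen Q J A K C) {a : V} (ha : IsNull a) (c : V)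
    {f g : Fn} (hf : GF.IsTest f) (hg : GF.IsTest g) (r : ℂ) (v : D) :
    bk J K a c (fun x => f x + r * g x) v = bk J K a c f v + r • bk J K a c g v := by
  obtain ⟨F, rfl⟩ := exists_fl hf
  obtain ⟨G, rfl⟩ := exists_fl hg
  rw [fl_add_smul, ← bkC_apply hJ h ha, ← bkC_apply hJ h ha, ← bkC_apply hJ h ha, map_add,
    map_smul]

theorem bk_cont (hJ : IsVirial Q T J) (h : NGen Q J A K C) {a : V} (ha : IsNull a) (c : V)
    (v : D) : Continuous fun g => bk J K a c (ev g) v := by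
  have h1 : (fun g => bk J K a c (ev g) v) = fun g => bkC hJ h ha c v (ofSch g) := by
    funext g
    rw [bkC_apply hJ h ha]
    rfl
  rw [h1]
  exact (bkC hJ h ha c v).continuous.comp ofSch.continuous

/-! ### Adjoints -/

lemma ct_herm (hJ : IsVirial Q T J) (c : V) (F : 𝓢(Mink, ℂ)) (v w : D) :
    inner ℂ (ctL hJ c v F) w = inner ℂ v (ctL hJ c w (conjS F)) := by
  rw [ctL_apply, ctL_apply]
  unfold ct
  rw [sum_inner, inner_sum]
  refine Finset.sum_congr rfl fun m _ => ?_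
  rw [inner_smul_left, inner_smul_right, conj_ofReal, hJ.herm m _ _ _ (isTest_fl F), bar_fl]

lemma conj_Xm (m : Ix) (F : 𝓢(Mink, ℂ)) : conjS (Xm m F) = Xm m (conjS F) := by
  ext x
  rw [conjS_apply, Xm_apply, Xm_apply, conjS_apply, map_mul, conj_ofReal]

lemma conj_sum {ι : Type*} (t : Finset ι) (u : ι → 𝓢(Mink, ℂ)) :
    conjS (∑ i ∈ t, u i) = ∑ i ∈ t, conjS (u i) := by
  ext x
  rw [conjS_apply, SchwartzMap.sum_apply, SchwartzMap.sum_apply, map_sum]
  rfl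

lemma conj_rsmul (r : ℝ) (F : 𝓢(Mink, ℂ)) : conjS ((r : ℂ) • F) = (r : ℂ) • conjS F := by
  ext x
  rw [conjS_apply, SchwartzMap.smul_apply, SchwartzMap.smul_apply, smul_eq_mul, smul_eq_mul,
    map_mul, conj_ofReal, conjS_apply]

lemma conj_axL (a : V) (F : 𝓢(Mink, ℂ)) : conjS (axL a F) = axL a (conjS F) := by
  unfold axL
  rw [ContinuousLinearMap.sum_apply, ContinuousLinearMap.sum_apply, conj_sum]
  refine Finset.sum_congr rfl fun m _ => ?_
  show conjS (((GF.eta m * a m : ℝ) : ℂ) • Xm m F) = ((GF.eta m * a m : ℝ) : ℂ) • Xm m (conjS F)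
  rw [conj_rsmul, conj_Xm]

lemma conj_pd (m : Ix) (F : 𝓢(Mink, ℂ)) :
    conjS (∂_{eb m} F : 𝓢(Mink, ℂ)) = (∂_{eb m} (conjS F) : 𝓢(Mink, ℂ)) := by
  ext x
  rw [conjS_apply]
  have h1 : (∂_{eb m} (conjS F) : 𝓢(Mink, ℂ)) x = fderiv ℝ (conjS F) x (eb m) := rfl
  have h2 : (∂_{eb m} F : 𝓢(Mink, ℂ)) x = fderiv ℝ F x (eb m) := rfl
  have h3 : (⇑(conjS F) : Mink → ℂ) = fun y => conjCLE (F y) := by
    funext y; rw [conjS_apply]; rfl
  rw [h1, h2, h3]
  have h4 := (conjCLE.toContinuousLinearMap.hasFDerivAt (x := F x)).comp x (F.hasFDerivAt x)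
  have h5 : fderiv ℝ (fun y => conjCLE (F y)) x = _ := h4.fderiv
  rw [h5]
  rfl

lemma conj_kdL (a : V) (Δ : ℝ) (F : 𝓢(Mink, ℂ)) : conjS (kdL a Δ F) = kdL a Δ (conjS F) := by
  ext x
  rw [conjS_apply, kdL_eq, kdL_eq]
  unfold H993.kdS
  simp only [SchwartzMap.sub_apply, SchwartzMap.smul_apply, H993.xxS_apply, H993.axS_apply,
    H993.dS_apply, Eu, SchwartzMap.sum_apply, Xm_apply, smul_eq_mul, ← conj_pd, conjS_apply,
    map_sub, map_mul, map_sum, conj_ofReal, map_ofNat]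

lemma xj_herm (hJ : IsVirial Q T J) (F : 𝓢(Mink, ℂ)) (v w : D) :
    inner ℂ (xjL hJ v F) w = inner ℂ v (xjL hJ w (conjS F)) := by
  have h1 : ∀ (v : D) (F : 𝓢(Mink, ℂ)), xjL hJ v F =
      ∑ b, ((GF.eta b : ℝ) : ℂ) • J b (fl (Xm b F)) v := by
    intro v F
    unfold xjL
    rw [ContinuousLinearMap.sum_apply]
    rfl
  rw [h1, h1, sum_inner, inner_sum]
  refine Finset.sum_congr rfl fun m _ => ?_
  rw [inner_smul_left, inner_smul_right, conj_ofReal, hJ.herm m _ _ _ (isTest_fl _), bar_fl,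
    conj_Xm]

lemma lp_herm (hJ : IsVirial Q T J) (a c : V) (F : 𝓢(Mink, ℂ)) (v w : D) :
    inner ℂ (lpL hJ a c v F) w = inner ℂ v (lpL hJ a c w (conjS F)) := by
  have h1 : ∀ (v : D) (F : 𝓢(Mink, ℂ)), lpL hJ a c v F = ctL hJ c v (kdL a 3 F) +
      ((2 * GF.mdot a c : ℝ) : ℂ) • xjL hJ v F - ((2 : ℝ) : ℂ) • ctL hJ a v (axL c F) := by
    intro v F
    have : ((2 : ℝ) : ℂ) = 2 := by norm_num
    rw [this]
    rfl
  rw [h1, h1, inner_sub_left, inner_sub_right, inner_add_left, inner_add_right, inner_smul_left,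
    inner_smul_right, inner_smul_left, inner_smul_right, conj_ofReal, conj_ofReal, ct_herm,
    xj_herm, ct_herm, conj_kdL, conj_axL]

/-- the bracket is antihermitian -/
theorem bk_herm (hJ : IsVirial Q T J) (h : NGen Q J A K C) {a : V} (ha : IsNull a) (c : V)
    {f : Fn} (hf : GF.IsTest f) (v w : D) :
    inner ℂ (bk J K a c f v) w = -inner ℂ v (bk J K a c (bar f) w) := by
  obtain ⟨F, rfl⟩ := exists_fl hf
  rw [bar_fl, bk_eq hJ, bk_eq hJ, inner_add_left, inner_add_right, inner_sub_left,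
    inner_sub_right, inner_smul_left, inner_smul_right, lp_herm, h.symm a _ _ ha, ct_herm,
    ct_herm, ← h.symm a v _ ha, conj_I]
  ring

/-! ### The field -/

/-- the candidate for the improvement field -/
def Lf (J : Ix → GF.Fld D) (K : V → D → D) (a b : V) (f : Fn) (v : D) : D :=
  (Complex.I / 24) • (bk J K a b f v + bk J K b a f v)

theorem Lf_herm (hJ : IsVirial Q T J) (h : NGen Q J A K C) {a b : V} (ha : IsNull a)
    (hb : IsNull b) {f : Fn} (hf : GF.IsTest f) (v w : D) :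
    inner ℂ (Lf J K a b f v) w = inner ℂ v (Lf J K a b (bar f) w) := by
  unfold Lf
  rw [inner_smul_left, inner_smul_right, inner_add_left, inner_add_right,
    bk_herm hJ h ha b hf, bk_herm hJ h hb a hf, map_div₀, conj_I]
  have : conj (24 : ℂ) = 24 := by
    have := conj_ofReal 24
    simpa using this
  rw [this]
  ring

theorem Lf_lin (hJ : IsVirial Q T J) (h : NGen Q J A K C) {a b : V} (ha : IsNull a)
    (hb : IsNull b) {f g : Fn} (hf : GF.IsTest f) (hg : GF.IsTest g) (r : ℂ) (v : D) :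
    Lf J K a b (fun x => f x + r * g x) v = Lf J K a b f v + r • Lf J K a b g v := by
  unfold Lf
  rw [bk_lin hJ h ha b hf hg, bk_lin hJ h hb a hf hg]
  simp only [smul_add, smul_smul, mul_comm r]
  abel

theorem Lf_cont (hJ : IsVirial Q T J) (h : NGen Q J A K C) {a b : V} (ha : IsNull a)
    (hb : IsNull b) (v : D) : Continuous fun g => Lf J K a b (ev g) v :=
  ((bk_cont hJ h ha b v).add (bk_cont hJ h hb a v)).const_smul _

end Vale.Agent.P352.G.H746

end
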