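import Vale.Agent.P352.G.Defs
import Vale.Agent.P352.H993.TrDefs
import Vale.Agent.P352.H15.Lor
import Vale.Agent.P352.G.KLin
import Vale.Agent.P352.H731.Ct0

set_option linter.all false

noncomputable section

open MeasureTheory SchwartzMap Complex Filter Topology
open scoped SchwartzMap ComplexConjugate ENNReal LineDeriv

namespace Vale.Agent.P352.G.H731

open Vale.Agent.P352.H731 Vale.Agent.P352.G

open GF (Ix V Fn Sch ev pd bar sim bas)
open H246 H246R H15 H496 H993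
open Vale.Agent.P352.H15
open UniformSpace (Completion)

variable {D : Type*} [NormedAddCommGroup D] [InnerProductSpace ℂ D]
variable {Q : GF.Theory D} {T : Ix → Ix → GF.Fld D} {J : Ix → GF.Fld D}
variable {A : (V → V) → D → D} {K C : V → D → D}

/-! ### The operators `K a` -/

/-- `K a` as a linear map -/
def KLn (h : NGen Q J A K C) {a : V} (ha : IsNull a) : D →ₗ[ℂ] D where
  toFun := K a
  map_add' := K_add h ha
  map_smul' := K_smul h ha

lemma KLn_apply (h : NGen Q J A K C) {a : V} (ha : IsNull a) (v : D) : KLn h ha v = K a v := rfl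

lemma K_vac (h : NGen Q J A K C) {a : V} (ha : IsNull a) : K a Q.vac = 0 := by
  have hs : sim 1 GF.one 0 a = (1 : ℝ) • a := by
    rw [sim_one]
    funext n
    simp
  have h1 := h.cov 2 GF.one 1 a a Q.vac two_pos one_pos isLor_one ha ha hs
  rw [Q.U_vac 2 GF.one 0 two_pos isLor_one] at h1
  have h2 := congrArg norm h1
  rw [U_nrm0 two_pos isLor_one, norm_smul, norm_real, Real.norm_of_nonneg (by norm_num)] at h2
  have h3 : ‖K a Q.vac‖ = 0 := by linarith
  exact norm_eq_zero.1 h3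

/-! ### Fields applied to the vacuum -/

/-- `f ↦ B(f) vac` -/
def opD {B : GF.Fld D} (hB : Q.fld B) : 𝓢(Mink, ℂ) →L[ℂ] D where
  toFun f := B (fl f) Q.vac
  map_add' f g := by
    have h1 := fld_lin hB f g 1 Q.vac
    rwa [one_smul, one_smul] at h1
  map_smul' c f := fld_smulf hB c f Q.vac
  cont := fld_cont hB Q.vac

lemma opD_apply {B : GF.Fld D} (hB : Q.fld B) (f : 𝓢(Mink, ℂ)) : opD hB f = B (fl f) Q.vac := rfl

lemma fld_vzero {B : GF.Fld D} (hB : Q.fld B) (f : 𝓢(Mink, ℂ)) : B (fl f) 0 = 0 := by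
  have := fld_smul hB f 0 0
  simpa using this

lemma fl_xmul (n : Ix) (f : 𝓢(Mink, ℂ)) : (fun x : V => (x n : ℂ) * fl f x) = fl (Xm n f) := by
  funext x
  rw [fl_apply, fl_apply, Xm_apply]

lemma fl_mdot (c : V) (f : 𝓢(Mink, ℂ)) : (fun x : V => (GF.mdot c x : ℂ) * fl f x) = fl (axS c f) := by
  funext x
  rw [fl_apply, fl_apply, axS_apply]

/-- `e_m` with the upper index -/
def eh (m : Ix) : V := fun n => if n = m then GF.eta m else 0

section

variable (hJ : IsVirial Q T J)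

/-- `∑ η_b J_b(x_b f) vac` -/
def Zf (f : 𝓢(Mink, ℂ)) : D :=
  ∑ b, (GF.eta b : ℂ) • opD (Q.bose_fld _ (hJ.bose b)) (Xm b f)

/-- the explicit terms of the bracket -/
def Ef (n : Ix) (a : V) (f : 𝓢(Mink, ℂ)) : D :=
  opD (Q.bose_fld _ (hJ.bose n)) (kdS a 3 f) + ((2 * a n : ℝ) : ℂ) • Zf hJ f -
    (2 : ℂ) • ∑ m, ((GF.eta m * a m : ℝ) : ℂ) • opD (Q.bose_fld _ (hJ.bose m)) (Xm n f)

/-- the components of the bracket on the vacuum -/
def Wf (K : V → D → D) (n : Ix) (a : V) (f : 𝓢(Mink, ℂ)) : D :=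
  K a (J n (fl f) Q.vac) + I • Ef hJ n a f

include hJ in
lemma ct_vzero (c : V) (f : 𝓢(Mink, ℂ)) : ct J c (fl f) 0 = 0 := by
  unfold ct
  refine Finset.sum_eq_zero fun m _ => ?_
  rw [fld_vzero (Q.bose_fld _ (hJ.bose m)), smul_zero]

lemma bk_W (h : NGen Q J A K C) {a : V} (ha : IsNull a) (c : V) (f : 𝓢(Mink, ℂ)) :
    bk J K a c (fl f) Q.vac = ∑ n, ((GF.eta n * c n : ℝ) : ℂ) • Wf hJ K n a f := by
  have e1 : K a (ct J c (fl f) Q.vac) =
      ∑ n, ((GF.eta n * c n : ℝ) : ℂ) • K a (J n (fl f) Q.vac) := by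
    rw [← KLn_apply h ha]
    unfold ct
    rw [map_sum]
    refine Finset.sum_congr rfl fun n _ => ?_
    rw [map_smul, KLn_apply]
  have e2 : ct J c (kd a 3 (fl f)) Q.vac =
      ∑ n, ((GF.eta n * c n : ℝ) : ℂ) • opD (Q.bose_fld _ (hJ.bose n)) (kdS a 3 f) := by
    rw [← fl_kdS]
    rfl
  have e3 : ∑ b, (GF.eta b : ℂ) • J b (fun x => (x b : ℂ) * fl f x) Q.vac = Zf hJ f := by
    unfold Zf
    refine Finset.sum_congr rfl fun b _ => ?_
    rw [fl_xmul]
    rfl
  have e4 : ct J a (fun x => (GF.mdot c x : ℂ) * fl f x) Q.vac =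
      ∑ n, ((GF.eta n * c n : ℝ) : ℂ) •
        ∑ m, ((GF.eta m * a m : ℝ) : ℂ) • opD (Q.bose_fld _ (hJ.bose m)) (Xm n f) := by
    rw [fl_mdot]
    unfold ct
    have : ∀ m, J m (fl (axS c f)) Q.vac =
        ∑ n, ((GF.eta n * c n : ℝ) : ℂ) • opD (Q.bose_fld _ (hJ.bose m)) (Xm n f) := by
      intro m
      rw [← opD_apply (Q.bose_fld _ (hJ.bose m))]
      unfold axS
      rw [map_sum]
      refine Finset.sum_congr rfl fun n _ => ?_
      rw [map_smul]
    simp only [this, Finset.smul_sum]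
    rw [Finset.sum_comm]
    refine Finset.sum_congr rfl fun n _ => Finset.sum_congr rfl fun m _ => ?_
    rw [smul_comm]
  unfold bk
  rw [K_vac h ha, ct_vzero hJ, sub_zero, e1, e2, e3, e4]
  unfold Wf Ef
  simp only [smul_add, smul_sub, Finset.sum_add_distrib, Finset.sum_sub_distrib, Finset.smul_sum]
  congr 1
  congr 1
  · congr 1
    · refine Finset.sum_congr rfl fun n _ => ?_
      rw [smul_comm]
    · rw [GF.mdot]
      simp only [smul_smul, ← Finset.sum_smul]
      congr 1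
      push_cast
      rw [Finset.mul_sum, Finset.mul_sum]
      refine Finset.sum_congr rfl fun n _ => ?_
      ring
  · refine Finset.sum_congr rfl fun n _ => Finset.sum_congr rfl fun m _ => ?_
    simp only [smul_smul]
    congr 1
    ring

end

/-! ### Linearity in `a` -/

lemma dS_add (a b : V) (f : 𝓢(Mink, ℂ)) : dS (a + b) f = dS a f + dS b f := by
  unfold dS
  simp only [Pi.add_apply, ofReal_add, add_smul, Finset.sum_add_distrib]

lemma dS_smul (c : ℝ) (a : V) (f : 𝓢(Mink, ℂ)) : dS (c • a) f = (c : ℂ) • dS a f := by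
  unfold dS
  simp only [Pi.smul_apply, smul_eq_mul, ofReal_mul, Finset.smul_sum, smul_smul]

lemma axS_add (a b : V) (f : 𝓢(Mink, ℂ)) : axS (a + b) f = axS a f + axS b f := by
  unfold axS
  simp only [Pi.add_apply, mul_add, ofReal_add, add_smul, Finset.sum_add_distrib]

lemma axS_smul (c : ℝ) (a : V) (f : 𝓢(Mink, ℂ)) : axS (c • a) f = (c : ℂ) • axS a f := by
  unfold axS
  simp only [Pi.smul_apply, smul_eq_mul, Finset.smul_sum, smul_smul]
  refine Finset.sum_congr rfl fun m _ => ?_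
  congr 1
  push_cast
  ring

lemma kdS_add (a b : V) (Δ : ℝ) (f : 𝓢(Mink, ℂ)) : kdS (a + b) Δ f = kdS a Δ f + kdS b Δ f := by
  ext x
  unfold kdS
  simp only [dS_add, axS_add, SchwartzMap.sub_apply, SchwartzMap.add_apply, SchwartzMap.smul_apply,
    xxS_apply]
  simp only [smul_eq_mul]
  ring

lemma kdS_smul (c : ℝ) (a : V) (Δ : ℝ) (f : 𝓢(Mink, ℂ)) :
    kdS (c • a) Δ f = (c : ℂ) • kdS a Δ f := by
  ext x
  unfold kdS
  simp only [dS_smul, axS_smul, SchwartzMap.sub_apply, SchwartzMap.smul_apply,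
    xxS_apply]
  simp only [smul_eq_mul]
  ring

section

variable (hJ : IsVirial Q T J)

lemma Ef_add (n : Ix) (a b : V) (f : 𝓢(Mink, ℂ)) :
    Ef hJ n (a + b) f = Ef hJ n a f + Ef hJ n b f := by
  unfold Ef
  simp only [kdS_add, map_add, Pi.add_apply, mul_add, ofReal_add, add_smul, Finset.sum_add_distrib,
    smul_add]
  abel

lemma Ef_smul (n : Ix) (c : ℝ) (a : V) (f : 𝓢(Mink, ℂ)) :
    Ef hJ n (c • a) f = (c : ℂ) • Ef hJ n a f := by
  unfold Ef
  simp only [kdS_smul, map_smul, Pi.smul_apply, smul_eq_mul, smul_sub, smul_add, Finset.smul_sum,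
    smul_smul]
  congr 1
  · congr 1
    congr 1
    push_cast
    ring
  · refine Finset.sum_congr rfl fun m _ => ?_
    congr 1
    push_cast
    ring

lemma Ef_sum {ι : Type*} (s : Finset ι) (n : Ix) (c : ι → ℝ) (a : ι → V) (f : 𝓢(Mink, ℂ)) :
    Ef hJ n (∑ i ∈ s, c i • a i) f = ∑ i ∈ s, (c i : ℂ) • Ef hJ n (a i) f := by
  classical
  induction s using Finset.induction_on with
  | empty =>
    have := Ef_smul hJ n 0 0 f
    simpa using this
  | insert i s hi ih =>
    rw [Finset.sum_insert hi, Finset.sum_insert hi, Ef_add, Ef_smul, ih]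

end

/-! ### The extension to all vectors -/

/-- null vectors that span -/
def nb : Ix → V := ![![1, 1, 0, 0], ![1, -1, 0, 0], ![1, 0, 1, 0], ![1, 0, 0, 1]]

/-- the coordinates with respect to `nb` -/
def cf (a : V) : Ix → ℝ :=
  ![(a 0 - a 2 - a 3 + a 1) / 2, (a 0 - a 2 - a 3 - a 1) / 2, a 2, a 3]

lemma isNull_nb (i : Ix) : IsNull (nb i) := by
  refine ⟨?_, ?_⟩
  · rw [gf_mdot]
    fin_cases i <;> simp [nb] 
  · fin_cases i <;> simp [nb, GF.o]

lemma cf_sum (a : V) : ∑ i, cf a i • nb i = a := by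
  funext n
  rw [Finset.sum_apply]
  fin_cases n <;> simp [cf, nb, Fin.sum_univ_four] <;> ring

lemma cf_add (a b : V) (i : Ix) : cf (a + b) i = cf a i + cf b i := by
  fin_cases i <;> simp [cf] <;> ring

lemma cf_smul (c : ℝ) (a : V) (i : Ix) : cf (c • a) i = c * cf a i := by
  fin_cases i <;> simp [cf] <;> ring

section

variable (hJ : IsVirial Q T J)

/-- the extension of `Wf` -/
def Wx (K : V → D → D) (n : Ix) (a : V) (f : 𝓢(Mink, ℂ)) : D :=
  ∑ i, (cf a i : ℂ) • Wf hJ K n (nb i) f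

lemma Wx_sum {ι : Type*} (s : Finset ι) (n : Ix) (c : ι → ℝ) (a : ι → V) (f : 𝓢(Mink, ℂ)) :
    Wx hJ K n (∑ i ∈ s, c i • a i) f = ∑ i ∈ s, (c i : ℂ) • Wx hJ K n (a i) f := by
  classical
  induction s using Finset.induction_on with
  | empty =>
    simp [Wx, cf, Fin.sum_univ_four]
  | insert i s hi ih =>
    rw [Finset.sum_insert hi, Finset.sum_insert hi, ← ih]
    unfold Wx
    rw [Finset.smul_sum, ← Finset.sum_add_distrib]
    refine Finset.sum_congr rfl fun j _ => ?_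
    rw [cf_add, cf_smul, smul_smul, ← add_smul]
    push_cast
    rfl

lemma Wx_null (h : NGen Q J A K C) (n : Ix) {a : V} (ha : IsNull a) (f : 𝓢(Mink, ℂ)) :
    Wx hJ K n a f = Wf hJ K n a f := by
  have h1 := k_lin h hJ (Fin.cons a nb) (Fin.cons (-1) (cf a)) (fun i => by
      refine Fin.cases ?_ (fun j => ?_) i
      · exact ha
      · exact isNull_nb j) (by
      rw [Fin.sum_univ_succ]
      simp only [Fin.cons_zero, Fin.cons_succ]
      rw [cf_sum]
      simp) n (fl f) (isTest_fl f)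
  rw [Fin.sum_univ_succ] at h1
  simp only [Fin.cons_zero, Fin.cons_succ] at h1
  have h2 := Ef_sum hJ Finset.univ n (cf a) nb f
  rw [cf_sum] at h2
  unfold Wx Wf
  simp only [smul_add, Finset.sum_add_distrib]
  rw [h2, Finset.smul_sum]
  congr 1
  · have h3 : ∑ x, (cf a x : ℂ) • K (nb x) (J n (fl f) Q.vac) =
        -(((-1 : ℝ) : ℂ) • K a (J n (fl f) Q.vac)) := by
      rw [eq_neg_iff_add_eq_zero, add_comm]
      exact h1
    rw [h3]
    simp
  · refine Finset.sum_congr rfl fun i _ => ?_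
    rw [smul_comm]

/-- the tensor -/
def Kt (K : V → D → D) (m n : Ix) (f : 𝓢(Mink, ℂ)) : D := Wx hJ K n (eh m) f

omit hJ in
lemma eh_sum (a : V) : ∑ m, (GF.eta m * a m) • eh m = a := by
  funext n
  rw [Finset.sum_apply]
  simp only [Pi.smul_apply, smul_eq_mul, eh, mul_ite, mul_zero]
  rw [Finset.sum_ite_eq]
  simp only [Finset.mem_univ, if_true]
  have := eta_sq n
  linear_combination (a n) * this

lemma Wx_eh (n : Ix) (a : V) (f : 𝓢(Mink, ℂ)) :
    Wx hJ K n a f = ∑ m, ((GF.eta m * a m : ℝ) : ℂ) • Kt hJ K m n f := by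
  unfold Kt
  rw [← Wx_sum, eh_sum]

/-- the extension of the bracket on the vacuum -/
def Bx (K : V → D → D) (a c : V) (f : 𝓢(Mink, ℂ)) : D :=
  ∑ n, ((GF.eta n * c n : ℝ) : ℂ) • Wx hJ K n a f

lemma Bx_null (h : NGen Q J A K C) {a : V} (ha : IsNull a) (c : V) (f : 𝓢(Mink, ℂ)) :
    Bx hJ K a c f = bk J K a c (fl f) Q.vac := by
  rw [bk_W hJ h ha]
  unfold Bx
  simp only [Wx_null hJ h _ ha]

lemma Bx_sum {ι : Type*} (s : Finset ι) (c : ι → ℝ) (a : ι → V) (b : V) (f : 𝓢(Mink, ℂ)) :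
    Bx hJ K (∑ i ∈ s, c i • a i) b f = ∑ i ∈ s, (c i : ℂ) • Bx hJ K (a i) b f := by
  unfold Bx
  simp only [Wx_sum, Finset.smul_sum]
  rw [Finset.sum_comm]
  refine Finset.sum_congr rfl fun i _ => Finset.sum_congr rfl fun n _ => ?_
  rw [smul_comm]

lemma Bx_Kt (a c : V) (f : 𝓢(Mink, ℂ)) : Bx hJ K a c f =
    ∑ m, ∑ n, ((GF.eta m * a m * (GF.eta n * c n) : ℝ) : ℂ) • Kt hJ K m n f := by
  unfold Bx
  simp only [Wx_eh, Finset.smul_sum]
  rw [Finset.sum_comm]
  refine Finset.sum_congr rfl fun m _ => Finset.sum_congr rfl fun n _ => ?_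
  rw [smul_smul]
  congr 1
  push_cast
  ring

lemma Bx_eh (m n : Ix) (f : 𝓢(Mink, ℂ)) : Bx hJ K (eh m) (eh n) f = Kt hJ K m n f := by
  unfold Bx Kt
  rw [Finset.sum_eq_single n]
  · have : GF.eta n * eh n n = 1 := by
      unfold eh
      rw [if_pos rfl, eta_sq]
    rw [this]
    simp
  · intro k _ hk
    unfold eh
    rw [if_neg hk]
    simp
  · intro hn
    exact absurd (Finset.mem_univ n) hn

end

end Vale.Agent.P352.G.H731

end
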