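import Vale.Agent.P352.G.Defs
import Vale.Agent.P352.G.Ten4
import Vale.Agent.P352.G.Bk3

set_option linter.all false

noncomputable section

open MeasureTheory SchwartzMap Complex Filter Topology
open scoped SchwartzMap ComplexConjugate ENNReal LineDeriv

namespace Vale.Agent.P352.G.H731

open Vale.Agent.P352.H731 Vale.Agent.P352.G

open GF (Ix V Fn Sch ev pd bar sim bas)
open H246 H15 H496
open Vale.Agent.P352.H15

variable {D : Type*} [NormedAddCommGroup D] [InnerProductSpace ℂ D]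
variable {Q : GF.Theory D} {T : Ix → Ix → GF.Fld D} {J : Ix → GF.Fld D}
variable {A : (V → V) → D → D} {K C : V → D → D}

/-- **The tensor theorem** (R2). -/
theorem tens (hJ : IsVirial Q T J) (h : NGen Q J A K C) : ∃ Y : Fn → D,
    (∀ a b f, IsNull a → IsNull b → GF.IsTest f →
      bk J K a b f Q.vac + bk J K b a f Q.vac = ((2 * GF.mdot a b : ℝ) : ℂ) • Y f) ∧
    (∀ f g (c : ℂ), GF.IsTest f → GF.IsTest g → Y (fun x => f x + c * g x) = Y f + c • Y g) ∧
    (Continuous fun g => Y (ev g)) ∧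
    (∀ s L x f, 0 < s → GF.IsLor L → GF.IsTest f →
      Y f = ((s ^ 2 : ℝ) : ℂ) • Q.U s L x (Y fun z => f (sim s L x z))) ∧
    ∀ a f, IsNull a → GF.IsTest f →
      ∑ m, bk J K a (fun n => if n = m then GF.eta m else 0) (pd m f) Q.vac =
        Y (fun x => ∑ m, (a m : ℂ) * pd m f x) :=
  tens0 hJ h fun s r L a b c x f v hs hr hL ha hb hab hf =>
    H746.bk_cov hJ h hs hr hL ha hb hab c x hf v

end Vale.Agent.P352.G.H731

namespace Vale.Agent.P352.G.H15

open Vale.Agent.P352.H15 Vale.Agent.P352.G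

open GF (Ix V Fn Sch ev pd bar sim bas)
open H246 H496

variable {D : Type*} [NormedAddCommGroup D] [InnerProductSpace ℂ D]
variable {Q : GF.Theory D} {T : Ix → Ix → GF.Fld D} {J : Ix → GF.Fld D}
variable {A : (V → V) → D → D} {K C : V → D → D}

/-- **The tensor theorem** (R2). -/
theorem tens (hT : Q.IsStress T) (hJ : IsVirial Q T J) (h : NGen Q J A K C) : ∃ Y : Fn → D,
    (∀ a b f, IsNull a → IsNull b → GF.IsTest f →
      bk J K a b f Q.vac + bk J K b a f Q.vac = ((2 * GF.mdot a b : ℝ) : ℂ) • Y f) ∧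
    (∀ f g (c : ℂ), GF.IsTest f → GF.IsTest g → Y (fun x => f x + c * g x) = Y f + c • Y g) ∧
    (Continuous fun g => Y (ev g)) ∧
    (∀ s L x f, 0 < s → GF.IsLor L → GF.IsTest f →
      Y f = ((s ^ 2 : ℝ) : ℂ) • Q.U s L x (Y fun z => f (sim s L x z))) ∧
    ∀ a f, IsNull a → GF.IsTest f →
      ∑ m, bk J K a (fun n => if n = m then GF.eta m else 0) (pd m f) Q.vac =
        Y (fun x => ∑ m, (a m : ℂ) * pd m f x) := H731.tens hJ h

end Vale.Agent.P352.G.H15

end
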