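import Vale.Agent.P352.G.Defs
import Vale.Agent.P352.H148.Kd2
import Vale.Agent.P352.G.R3a

set_option linter.all false

noncomputable section

open MeasureTheory SchwartzMap Complex Filter Topology
open scoped SchwartzMap ComplexConjugate ENNReal LineDeriv

namespace Vale.Agent.P352.G.H148

open Vale.Agent.P352.H148 Vale.Agent.P352.G

open GF (Ix V Fn Sch ev pd bar sim bas o)
open H246 H496 H755 H731 H746 H993 H15
open Vale.Agent.P352.H731 Vale.Agent.P352.H746 Vale.Agent.P352.H15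

variable {D : Type*} [NormedAddCommGroup D] [InnerProductSpace ℂ D]
variable {Q : GF.Theory D} {T : Ix → Ix → GF.Fld D} {J : Ix → GF.Fld D}
variable {A : (V → V) → D → D} {K C : V → D → D}

lemma K_vac (h : NGen Q J A K C) {a : V} (ha : IsNull a) : K a Q.vac = 0 := by
  have e : sim 1 GF.one 0 a = (1 : ℝ) • a := by
    rw [sim_one, one_smul]
    funext n
    simp
  have h1 := h.cov 2 GF.one 1 a a Q.vac two_pos one_pos isLor_one ha ha e
  rw [Q.U_vac 2 GF.one 0 two_pos isLor_one] at h1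
  have h2 : ‖K a Q.vac‖ = (1 / 2) * ‖K a Q.vac‖ := by
    have h3 := congrArg norm h1
    rw [U_nrm0 two_pos isLor_one, norm_smul, norm_real, Real.norm_of_nonneg (by norm_num)] at h3
    exact h3
  have h4 : ‖K a Q.vac‖ = 0 := by linarith
  exact norm_eq_zero.1 h4

/-- the field `J b` applied to the vacuum as a linear map -/
def jL (hJ : IsVirial Q T J) (b : Ix) : 𝓢(Mink, ℂ) →ₗ[ℂ] D where
  toFun F := J b (fl F) Q.vac
  map_add' F G := fld_addf (Q.bose_fld _ (hJ.bose b)) F G _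
  map_smul' c F := fld_smulf (Q.bose_fld _ (hJ.bose b)) c F _

lemma jL_eq (hJ : IsVirial Q T J) (b : Ix) (F : 𝓢(Mink, ℂ)) : J b (fl F) Q.vac = jL hJ b F := rfl

/-- `Y` as a linear map -/
def yL {Y : Fn → D} (hY : YF Q Y) : 𝓢(Mink, ℂ) →ₗ[ℂ] D where
  toFun F := Y (fl F)
  map_add' := hY.add
  map_smul' := hY.smul

lemma yL_eq {Y : Fn → D} (hY : YF Q Y) (F : 𝓢(Mink, ℂ)) : Y (fl F) = yL hY F := rfl

/-- `K a` as a linear map -/
def KL (h : NGen Q J A K C) {a : V} (ha : IsNull a) : D →ₗ[ℂ] D where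
  toFun := K a
  map_add' := (K_adj h ha).add
  map_smul' := (K_adj h ha).smul

lemma KL_eq (h : NGen Q J A K C) {a : V} (ha : IsNull a) (v : D) : K a v = KL h ha v := rfl

lemma ct_eq (hJ : IsVirial Q T J) (c : V) (F : 𝓢(Mink, ℂ)) :
    ct J c (fl F) Q.vac = ∑ m, ((GF.eta m * c m : ℝ) : ℂ) • jL hJ m F := rfl

lemma J_zero (hJ : IsVirial Q T J) (b : Ix) (F : 𝓢(Mink, ℂ)) : J b (fl F) 0 = 0 := by
  have := fld_smul (Q.bose_fld _ (hJ.bose b)) F 0 (0 : D)
  rwa [zero_smul, zero_smul] at this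

/-- the bracket on the vacuum -/
lemma bk_vac (hJ : IsVirial Q T J) (h : NGen Q J A K C) {a : V} (ha : IsNull a) (c : V)
    (F : 𝓢(Mink, ℂ)) : bk J K a c (fl F) Q.vac =
      K a (∑ m, ((GF.eta m * c m : ℝ) : ℂ) • jL hJ m F) +
      I • (∑ m, ((GF.eta m * c m : ℝ) : ℂ) • jL hJ m (kdS a 3 F) +
        ((2 * GF.mdot a c : ℝ) : ℂ) • ∑ b, (GF.eta b : ℂ) • jL hJ b (Xm b F) -
        (2 : ℂ) • ∑ m, ((GF.eta m * a m : ℝ) : ℂ) • jL hJ m (axS c F)) := by
  have e0 : ct J c (fl F) (K a Q.vac) = 0 := by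
    rw [K_vac h ha]
    unfold ct
    refine Finset.sum_eq_zero fun m _ => ?_
    rw [J_zero hJ, smul_zero]
  have e1 : ct J c (kd a 3 (fl F)) Q.vac =
      ∑ m, ((GF.eta m * c m : ℝ) : ℂ) • jL hJ m (kdS a 3 F) := by
    rw [← fl_kdS]
    rfl
  have e2 : ∀ b, J b (fun x => (x b : ℂ) * fl F x) Q.vac = jL hJ b (Xm b F) := by
    intro b
    have : (fun x : V => (x b : ℂ) * fl F x) = fl (Xm b F) := by
      funext x
      rw [fl_apply, fl_apply, Xm_apply]
    rw [this]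
    rfl
  have e3 : ct J a (fun x => (GF.mdot c x : ℂ) * fl F x) Q.vac =
      ∑ m, ((GF.eta m * a m : ℝ) : ℂ) • jL hJ m (axS c F) := by
    have : (fun x : V => (GF.mdot c x : ℂ) * fl F x) = fl (axS c F) := by
      funext x
      rw [fl_apply, fl_apply, axS_apply]
    rw [this]
    rfl
  unfold bk
  rw [e0, e1, e3, sub_zero]
  simp only [e2]
  rfl

/-- the null component of the virial current on the vacuum is quasi-primary -/
lemma K_ct (hJ : IsVirial Q T J) (h : NGen Q J A K C) {a : V} (ha : IsNull a)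
    (F : 𝓢(Mink, ℂ)) (hb : bk J K a a (fl F) Q.vac = 0) :
    K a (ct J a (fl F) Q.vac) = -(I • ct J a (fl (kdS a 2 F)) Q.vac) := by
  rw [bk_vac hJ h ha] at hb
  rw [ct_eq hJ, ct_eq hJ]
  have e1 : kdS a 2 F = kdS a 3 F - (2 : ℂ) • axS a F := by
    ext x
    simp only [SchwartzMap.sub_apply, SchwartzMap.smul_apply, smul_eq_mul, kdS_apply, axS_apply]
    push_cast
    ring
  have e2 : ((2 * GF.mdot a a : ℝ) : ℂ) = 0 := by
    rw [ha.1]
    simp
  rw [e2, zero_smul, add_zero] at hb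
  rw [e1]
  simp only [map_sub, map_smul]
  rw [eq_neg_iff_add_eq_zero, ← hb]
  congr 1
  congr 1
  simp only [smul_sub, Finset.sum_sub_distrib, Finset.smul_sum, smul_comm (2 : ℂ)]

/-- the trace on the vacuum -/
lemma tr_vac (hJ : IsVirial Q T J) (F : 𝓢(Mink, ℂ)) :
    GF.tr T (fl F) Q.vac = -∑ m, jL hJ m (∂_{eb m} F : 𝓢(Mink, ℂ)) := by
  rw [hJ.div _ _ (isTest_fl F)]
  simp only [pd_fl]
  rfl

/-- the bracket with the component `m` -/
lemma bk_comp (hJ : IsVirial Q T J) (h : NGen Q J A K C) {a : V} (ha : IsNull a) (m : Ix)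
    (F : 𝓢(Mink, ℂ)) :
    bk J K a (fun n => if n = m then GF.eta m else 0) (fl F) Q.vac =
      K a (jL hJ m F) + I • (jL hJ m (kdS a 3 F) +
        (2 * a m : ℂ) • ∑ b, (GF.eta b : ℂ) • jL hJ b (Xm b F) -
        (2 : ℂ) • ∑ b, ((GF.eta b * a b : ℝ) : ℂ) • jL hJ b (Xm m F)) := by
  rw [bk_vac hJ h ha]
  have hc : ∀ n, GF.eta n * (if n = m then GF.eta m else 0) = if n = m then 1 else 0 := by
    intro n
    by_cases hn : n = m
    · subst hn
      rw [if_pos rfl, if_pos rfl, eta_sq]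
    · rw [if_neg hn, if_neg hn, mul_zero]
  have e1 : ∀ G : 𝓢(Mink, ℂ), ∑ n, ((GF.eta n * (if n = m then GF.eta m else 0) : ℝ) : ℂ) •
      jL hJ n G = jL hJ m G := by
    intro G
    simp only [hc]
    rw [Finset.sum_eq_single m]
    · rw [if_pos rfl, ofReal_one, one_smul]
    · intro n _ hn
      rw [if_neg hn, ofReal_zero, zero_smul]
    · intro hn
      exact absurd (Finset.mem_univ m) hn
  have e2 : GF.mdot a (fun n => if n = m then GF.eta m else 0) = a m := by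
    unfold GF.mdot
    rw [Finset.sum_eq_single m]
    · show GF.eta m * a m * (if m = m then GF.eta m else 0) = a m
      rw [if_pos rfl, mul_right_comm, eta_sq, one_mul]
    · intro n _ hn
      show GF.eta n * a n * (if n = m then GF.eta m else 0) = 0
      rw [if_neg hn, mul_zero]
    · intro hn
      exact absurd (Finset.mem_univ m) hn
  have e3 : axS (fun n => if n = m then GF.eta m else 0) F = Xm m F := by
    unfold axS
    simp only [hc]
    rw [Finset.sum_eq_single m]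
    · rw [if_pos rfl, ofReal_one, one_smul]
    · intro n _ hn
      rw [if_neg hn, ofReal_zero, zero_smul]
    · intro hn
      exact absurd (Finset.mem_univ m) hn
  rw [e1, e1, e2, e3, ofReal_mul, ofReal_ofNat]

/-- `K a` on the trace -/
lemma K_tr (hJ : IsVirial Q T J) (h : NGen Q J A K C) {a : V} (ha : IsNull a) {w : D}
    (F : 𝓢(Mink, ℂ)) (hd : ∑ m, bk J K a (fun n => if n = m then GF.eta m else 0)
      (fl (∂_{eb m} F : 𝓢(Mink, ℂ))) Q.vac = w) :
    K a (GF.tr T (fl F) Q.vac) = -(I • GF.tr T (fl (kdS a 4 F)) Q.vac) - w := by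
  simp only [bk_comp hJ h ha] at hd
  rw [tr_vac hJ, tr_vac hJ, ← hd]
  simp only [KL_eq h ha, map_neg, map_sum, ld_kdS, map_sub, map_add, map_smul]
  have e3 : (4 : ℝ) - 1 = 3 := by norm_num
  rw [e3]
  have hE : ∀ b, jL hJ b (Eu F) = ∑ n, jL hJ b (Xm n (∂_{eb n} F : 𝓢(Mink, ℂ))) := by
    intro b
    unfold Eu
    rw [map_sum]
  have hS : ∀ b, jL hJ b (Xm b (dS a F)) =
      ∑ n, (a n : ℂ) • jL hJ b (Xm b (∂_{eb n} F : 𝓢(Mink, ℂ))) := by
    intro b
    unfold dS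
    rw [map_sum, map_sum]
    simp only [map_smul]
  simp only [hE, hS]
  simp only [Fin.sum_univ_four]
  push_cast
  module

section

variable {Y : Fn → D}

lemma K_Xi (hJ : IsVirial Q T J) (h : NGen Q J A K C) (hY : YF Q Y)
    (h3 : ∀ a f, IsNull a → GF.IsTest f → K a (Y f) = -(I • Y (kd a 2 f))) {a : V}
    (ha : IsNull a) (hd : ∀ f, GF.IsTest f →
      ∑ m, bk J K a (fun n => if n = m then GF.eta m else 0) (pd m f) Q.vac =
        Y (fun x => ∑ m, (a m : ℂ) * pd m f x)) (g : 𝓢(Mink, ℂ)) :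
    K a (Xi Q T Y g) = -(I • Xi Q T Y (kdS a 4 g)) := by
  have h4 := hd (fl g) (isTest_fl g)
  rw [← fl_dS] at h4
  simp only [pd_fl] at h4
  have h5 := K_tr hJ h ha g h4
  have h6 := h3 a (fl (boxS g)) ha (isTest_fl _)
  rw [← fl_kdS] at h6
  unfold Xi
  rw [box_kdS, hY.add, hY.smul, KL_eq h ha, map_sub, map_smul, ← KL_eq, ← KL_eq, h5, h6]
  have hI : (I : ℂ) * I = -1 := I_mul_I
  have e1 : (I / 4) • -(I • Y (fl (kdS a 2 (boxS g)))) =
      (4 : ℂ)⁻¹ • Y (fl (kdS a 2 (boxS g))) := by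
    rw [smul_neg, smul_smul, ← neg_smul]
    congr 1
    linear_combination (-(1 : ℂ) / 4) * hI
  have e2 : I • (GF.tr T (fl (kdS a 4 g)) Q.vac -
      (I / 4) • (Y (fl (kdS a 2 (boxS g))) + (4 : ℂ) • Y (fl (dS a g)))) =
      I • GF.tr T (fl (kdS a 4 g)) Q.vac + (4 : ℂ)⁻¹ • Y (fl (kdS a 2 (boxS g))) +
        Y (fl (dS a g)) := by
    rw [smul_sub, smul_smul, smul_add, smul_smul]
    have e3 : I * (I / 4) = -(4 : ℂ)⁻¹ := by
      linear_combination ((1 : ℂ) / 4) * hI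
    have e4 : I * (I / 4) * 4 = -1 := by
      linear_combination hI
    rw [e4, e3]
    module
  rw [e1, e2]
  abel

lemma K_Wv (hJ : IsVirial Q T J) (h : NGen Q J A K C) (hY : YF Q Y)
    (h3 : ∀ a f, IsNull a → GF.IsTest f → K a (Y f) = -(I • Y (kd a 2 f))) {a : V}
    (ha : IsNull a) (hb : ∀ f, GF.IsTest f → bk J K a a f Q.vac + bk J K a a f Q.vac =
      ((2 * GF.mdot a a : ℝ) : ℂ) • Y f) (f : 𝓢(Mink, ℂ)) :
    K a (Wv Q J Y a f) = -(I • Wv Q J Y a (kdS a 2 f)) := by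
  have h0 : bk J K a a (fl f) Q.vac = 0 := by
    have h4 := hb (fl f) (isTest_fl f)
    rw [ha.1, mul_zero, ofReal_zero, zero_smul, ← two_smul ℂ] at h4
    exact (smul_eq_zero.1 h4).resolve_left two_ne_zero
  have h5 := K_ct hJ h ha f h0
  have h6 := h3 a (fl (dS a f)) ha (isTest_fl _)
  rw [← fl_kdS] at h6
  unfold Wv
  rw [dS_kdS ha.1, KL_eq h ha, map_add, map_smul, ← KL_eq, ← KL_eq, h5, h6, smul_add,
    smul_neg, smul_smul, smul_smul, mul_comm (I / 4) I]
  abel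

/-- **Steps (1) to (4) of the row R4.** -/
theorem r4_symm (hT : Q.IsStress T) (hJ : IsVirial Q T J) (h : NGen Q J A K C)
    (h2 : (∀ a b f, IsNull a → IsNull b → GF.IsTest f →
        bk J K a b f Q.vac + bk J K b a f Q.vac = ((2 * GF.mdot a b : ℝ) : ℂ) • Y f) ∧
      (∀ f g c, GF.IsTest f → GF.IsTest g → Y (fun x => f x + c * g x) = Y f + c • Y g) ∧
      (Continuous fun g => Y (ev g)) ∧
      (∀ s L x f, 0 < s → GF.IsLor L → GF.IsTest f →
        Y f = ((s ^ 2 : ℝ) : ℂ) • Q.U s L x (Y fun z => f (sim s L x z))) ∧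
      ∀ a f, IsNull a → GF.IsTest f →
        ∑ m, bk J K a (fun n => if n = m then GF.eta m else 0) (pd m f) Q.vac =
          Y (fun x => ∑ m, (a m : ℂ) * pd m f x))
    (h3 : ∀ a f, IsNull a → GF.IsTest f → K a (Y f) = -(I • Y (kd a 2 f)))
    {a : V} (ha : IsNull a) (f g : 𝓢(Mink, ℂ)) :
    inner ℂ (Xi Q T Y (kdS a 4 g)) (Wv Q J Y a f) +
      inner ℂ (Xi Q T Y g) (Wv Q J Y a (kdS a 2 f)) = 0 := by
  obtain ⟨hb, hl, hc, hcov, hd⟩ := h2
  have hY : YF Q Y := ⟨hl, hc, hcov⟩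
  have h4 := K_Xi hJ h hY h3 ha (fun f hf => hd a f ha hf) g
  have h5 := K_Wv hJ h hY h3 ha (fun f hf => hb a a f ha ha hf) f
  have h6 := h.symm a (Xi Q T Y g) (Wv Q J Y a f) ha
  rw [h4, h5, inner_neg_left, inner_neg_right, inner_smul_left, inner_smul_right, conj_I] at h6
  have h7 : I * (inner ℂ (Xi Q T Y (kdS a 4 g)) (Wv Q J Y a f) +
      inner ℂ (Xi Q T Y g) (Wv Q J Y a (kdS a 2 f))) = 0 := by
    linear_combination h6
  exact (mul_eq_zero.1 h7).resolve_left I_ne_zero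

end

end Vale.Agent.P352.G.H148

end
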