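import Vale.Agent.P352.G.Defs
import Vale.Agent.P352.G.Top2

set_option linter.all false

/-!
# P352: the improvement field does not depend on the pair of null vectors
-/

noncomputable section

open MeasureTheory Filter Topology SchwartzMap
open scoped SchwartzMap ComplexConjugate LineDeriv

namespace Vale.Agent.P352.G.H731

open Vale.Agent.P352.H731 Vale.Agent.P352.G

open GF (Ix V Fn Fld Theory Sch IsLor bas eta o sim pd tr improve ev bar Sep)
open H246 H496 H755 H746 H846 H15
open Vale.Agent.P352.H746 Vale.Agent.P352.H846 Vale.Agent.P352.H15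

variable {D : Type*} [NormedAddCommGroup D] [InnerProductSpace ℂ D]
variable {Q Q' : GF.Theory D} {T : Ix → Ix → GF.Fld D} {J : Ix → GF.Fld D}
  {A : (V → V) → D → D} {K C : V → D → D}

/-- the improvement field is the same for all pairs of null vectors -/
theorem lf_agree (hT : Q.IsStress T) (hJ : IsVirial Q T J) (h : NGen Q J A K C)
    (hm : Mom Q T K ∨ Act Q J K) {a b a' b' : V} (hp : NPr a b) (hp' : NPr a' b') {f : Fn}
    (hf : GF.IsTest f) (v : D) : Lf J K a b f v = Lf J K a' b' f v := by
  obtain ⟨Y, hY⟩ := H15.tens hT hJ h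
  obtain ⟨y1, y2, y3, y4, y5⟩ := hY
  have hLY : ∀ a b f, NPr a b → GF.IsTest f → Lf J K a b f Q.vac = (Complex.I / 12) • Y f := by
    intro a b f hp hf
    unfold Lf
    rw [y1 a b f hp.1 hp.2.1 hf, hp.2.2, smul_smul]
    congr 1
    push_cast
    ring
  have hF : LFam Q (Lf J K) := H15.lfam_Lf hT hJ h hm fun a b a' b' f hp hp' hf => by
    rw [hLY a b f hp hf, hLY a' b' f hp' hf]
  exact hF.agree hp hp' hf v

end Vale.Agent.P352.G.H731

end
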