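import Vale.Agent.P352.G.Main
import Vale.Agent.P352.H846.Chg1
import Vale.Agent.P352.H846.AddK

/-!
# The second moments are the conformal charges of the improved stress tensor
-/

set_option linter.all false

noncomputable section

open MeasureTheory Filter Topology Set
open scoped ContDiff ComplexConjugate

namespace Vale.Agent.P352.GChg

section

open GF (Ix V Fn Fld bas eta pd)
open H755 H496 H15 H246 H993
open H846 (cut_tst cut_cv contDiff_cv contDiff_mdot mdot_cv cv)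
open H746 (Lf)
open GMain (JLim)

variable {D : Type*} [NormedAddCommGroup D] [InnerProductSpace ℂ D]
variable {Q : GF.Theory D} {T : Ix → Ix → GF.Fld D} {J : Ix → GF.Fld D}
  {A : (V → V) → D → D} {K : V → D → D}

lemma vf_of (hJ : IsVirial Q T J) {C : V → D → D} (hC : JLim J C) {a b : V} (ha : IsNull a) (hb : IsNull b)
    (hab : GF.mdot a b = 1) : VF J a b := by
  intro ν ψ v w hν hν0 hψ
  obtain ⟨κ, hκ, hκ1⟩ := exists_kp
  have hκ' : Tst fun z => κ z + ν z := ⟨hκ.1.add hν.1, hκ.2.add hν.2⟩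
  have hκ1' : ∀ᶠ x in 𝓝 (0 : V), κ x + ν x = 1 := by
    filter_upwards [hκ1, hν0] with x h1 h2
    rw [h1, h2, add_zero]
  have h1 := hC a b κ 0 ψ v w ⟨ha, hb, hab, hκ, hκ1, hψ⟩
  have h2 := hC a b (fun z => κ z + ν z) 0 ψ v w ⟨ha, hb, hab, hκ', hκ1', hψ⟩
  have h3 := h2.sub h1
  rw [sub_self] at h3
  refine h3.congr' ?_
  filter_upwards [eventually_ge_atTop (1 : ℝ)] with R hR
  have t1 : ∀ m, Tst fun x => eta m * a m * (cut a b κ R x * ψ (GF.mdot a x)) := fun m =>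
    tst_smul contDiff_const (cut_tst ha.1 hb.1 hab hκ hψ hR)
  have t2 : ∀ m, Tst fun x => eta m * a m * (cut a b ν R x * ψ (GF.mdot a x)) := fun m =>
    tst_smul contDiff_const (cut_tst ha.1 hb.1 hab hν hψ hR)
  have h4 := jm_lin hJ (F := fun m x => eta m * a m * (cut a b κ R x * ψ (GF.mdot a x)))
    (G := fun m x => eta m * a m * (cut a b ν R x * ψ (GF.mdot a x))) 1 t1 t2 v
  rw [← inner_sub_right]
  congr 1
  have e1 : (∑ m, J m (fun x => ((eta m * a m * ctf a b (fun z => κ z + ν z) 0 ψ R x : ℝ) : ℂ)) v) =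
      jm J (fun m x => eta m * a m * (cut a b κ R x * ψ (GF.mdot a x)) +
        1 * (eta m * a m * (cut a b ν R x * ψ (GF.mdot a x)))) v := by
    unfold jm
    refine Finset.sum_congr rfl fun m _ => ?_
    congr 1
    funext x
    congr 1
    unfold ctf
    rw [sub_zero]
    simp only [cut_cv]
    ring
  have e2 : (∑ m, J m (fun x => ((eta m * a m * ctf a b κ 0 ψ R x : ℝ) : ℂ)) v) =
      jm J (fun m x => eta m * a m * (cut a b κ R x * ψ (GF.mdot a x))) v := by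
    unfold jm
    refine Finset.sum_congr rfl fun m _ => ?_
    congr 1
    funext x
    congr 1
    unfold ctf
    rw [sub_zero]
  rw [e1, e2, h4, Complex.ofReal_one, one_smul, add_sub_cancel_left]


section

variable {a b : V} (haa : GF.mdot a a = 0) (hbb : GF.mdot b b = 0) (hab : GF.mdot a b = 1)
include haa hbb hab

/-- **(LF)** -/
theorem lf0 (hJ : IsVirial Q T J) (hsy : ∀ a v w, IsNull a → inner ℂ (K a v) w = inner ℂ v (K a w)) (hN : NF J a b) (hV : VF J a b)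
    (ha : IsNull a) (hb : IsNull b) {ν : V → ℝ} {ψ : ℝ → ℝ}
    (hν : Tst ν) (hν0 : ∀ᶠ x in 𝓝 (0 : V), ν x = 0) (hψ : Tst ψ) (v w : D) :
    Tendsto (fun R => inner ℂ w (Lf J K a b (fun x => (gR a b ν ψ R x : ℂ)) v)) atTop (𝓝 0) := by
  have c1 : ∀ v w : D, Tendsto (fun R => inner ℂ w (ct J b (fun x => (gR a b ν ψ R x : ℂ)) v))
      atTop (𝓝 0) := by
    intro v w
    refine (lim1 haa hbb hab hN hν hν0 hψ v w).congr' ?_
    filter_upwards [eventually_ge_atTop (1 : ℝ)] with R hR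
    have g0 := tst_gR haa hbb hab hν hψ hR
    congr 1
    unfold ct jm
    exact Finset.sum_congr rfl fun m _ => by
      rw [jr_smul (Q.bose_fld _ (hJ.bose m)) _ g0]
  have c2 : ∀ v w : D, Tendsto (fun R => inner ℂ w (ct J a (fun x => (gR a b ν ψ R x : ℂ)) v))
      atTop (𝓝 0) := by
    intro v w
    have l1 := hV ν ψ v w hν hν0 hψ
    have l2 : Tendsto (fun R : ℝ => (((R ^ 2)⁻¹ : ℝ) : ℂ)) atTop (𝓝 0) := by
      have : Tendsto (fun R : ℝ => (R ^ 2)⁻¹) atTop (𝓝 0) :=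
        (tendsto_pow_atTop (by norm_num)).inv_tendsto_atTop
      exact (Complex.continuous_ofReal.tendsto' 0 0 (by simp)).comp this
    have l3 := l2.mul l1
    rw [zero_mul] at l3
    refine l3.congr' ?_
    filter_upwards [eventually_ge_atTop (1 : ℝ)] with R hR
    have g0 := cut_tst haa hbb hab hν hψ hR
    rw [← inner_smul_right]
    congr 1
    unfold ct jm
    rw [Finset.smul_sum]
    refine Finset.sum_congr rfl fun m _ => ?_
    have e : (fun x => (gR a b ν ψ R x : ℂ)) =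
        fun x => (((R ^ 2)⁻¹ * (cut a b ν R x * ψ (GF.mdot a x)) : ℝ) : ℂ) := by
      funext x
      unfold gR
      rw [mul_assoc]
    rw [e, jr_smul (Q.bose_fld _ (hJ.bose m)) _ g0, jr_smul (Q.bose_fld _ (hJ.bose m)) _ g0]
    push_cast
    module
  have b1 : ∀ v w : D, Tendsto (fun R => inner ℂ w (bk J K a b (fun x => (gR a b ν ψ R x : ℂ)) v))
      atTop (𝓝 0) := by
    intro v w
    have l1 := c1 v (K a w)
    have l2 := c1 (K a v) w
    have l3 := lim_lpa haa hbb hab hJ hN hν hν0 hψ v w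
    have l4 := (l1.sub l2).add (l3.const_mul Complex.I)
    simp only [mul_zero, add_zero, sub_zero] at l4
    refine l4.congr fun R => ?_
    rw [bk_lpp, inner_add_right, inner_sub_right, inner_smul_right, hsy a w _ ha]
  have b2 : ∀ v w : D, Tendsto (fun R => inner ℂ w (bk J K b a (fun x => (gR a b ν ψ R x : ℂ)) v))
      atTop (𝓝 0) := by
    intro v w
    have l1 := c2 v (K b w)
    have l2 := c2 (K b v) w
    have l3 := lim_lpb haa hbb hab hJ hN hV hν hν0 hψ v w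
    have l4 := (l1.sub l2).add (l3.const_mul Complex.I)
    simp only [mul_zero, add_zero, sub_zero] at l4
    refine l4.congr fun R => ?_
    rw [bk_lpp, inner_add_right, inner_sub_right, inner_smul_right, hsy b w _ hb]
  have l := ((b1 v w).add (b2 v w)).const_mul (Complex.I / 24)
  simp only [mul_zero, add_zero] at l
  refine l.congr fun R => ?_
  unfold Lf
  rw [inner_smul_right, inner_add_right]

end

end

section

open GF (Ix V Fn Fld bas eta o bar)
open H755 H496 H15 H246 H846 H246D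
open GMain (JLim)

variable {D : Type*} [NormedAddCommGroup D] [InnerProductSpace ℂ D]
variable {Q : GF.Theory D} {T : Ix → Ix → GF.Fld D} {J : Ix → GF.Fld D}
  {A : (V → V) → D → D} {K : V → D → D}

/-- plane limit for the similitudes -/
theorem pl_r (h : NullCharges Q T J A K) {C : V → D → D} (hC : JLim J C) {a b : V} {κ : V → ℝ}
    {ψ : ℝ → ℝ} (had : Adm a b κ ψ) {r : ℝ} {X : V → V} (hX : IsSim r X) (v w : D) :
    Tendsto (fun R => inner ℂ w (sm T (fun m n x => eta m * a m * (eta n * X x n) *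
      ctf a b κ 0 ψ R x) v)) atTop
      (𝓝 ((∫ u, (ψ u : ℂ)) * (inner ℂ w (A X v) + r * inner ℂ w (C a v)))) := by
  have t1 := h.gen a b κ 0 ψ r X v w had hX
  have t2 := (hC a b κ 0 ψ v w had).const_mul (r : ℂ)
  have t3 := t1.add t2
  have e0 : (∫ u, (ψ u : ℂ)) * inner ℂ w (A X v) + (r : ℂ) * ((∫ u, (ψ u : ℂ)) *
      inner ℂ w (C a v)) = (∫ u, (ψ u : ℂ)) * (inner ℂ w (A X v) + r * inner ℂ w (C a v)) := by
    ring
  rw [e0] at t3
  refine t3.congr fun R => ?_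
  rw [inner_sub_right]
  have e : inner ℂ w (∑ m, (r : ℂ) • J m (fun x => ((eta m * a m * ctf a b κ 0 ψ R x : ℝ) : ℂ)) v) =
      (r : ℂ) * inner ℂ w (∑ m, J m (fun x => ((eta m * a m * ctf a b κ 0 ψ R x : ℝ) : ℂ)) v) := by
    rw [← Finset.smul_sum, inner_smul_right]
  rw [e]
  ring

/-- plane limit for the conformal current -/
theorem pl_cK (hT : Q.IsStress T) (h : NullCharges Q T J A K) {C : V → D → D} (hC : JLim J C)
    (htra : ∀ a x v, IsNull a → Q.U 1 GF.one x (K a (Q.U 1 GF.one (-x) v)) = K a v +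
      A (fun z => -(2 * GF.mdot a x) • z + (2 * GF.mdot x z) • a - (2 * GF.mdot a z) • x +
        cK a x) v - ((2 * GF.mdot a x : ℝ) : ℂ) • C a v) {a b : V}
    {κ : V → ℝ} {ψ : ℝ → ℝ} (had : Adm a b κ ψ) (v w : D) :
    Tendsto (fun R => inner ℂ w (sm T (fun m n x => eta m * a m * (eta n * cK a x n) *
      ctf a b κ 0 ψ R x) v)) atTop (𝓝 ((∫ u, (ψ u : ℂ)) * inner ℂ w (K a v))) := by
  obtain ⟨ha, hb, hab, hκ, hκ1, hψ⟩ := had
  have hp1 : ContDiff ℝ ∞ fun u : ℝ => 2 * u := by fun_prop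
  have hp2 : ContDiff ℝ ∞ fun u : ℝ => 2 * u ^ 2 := by fun_prop
  have t2 := pl_r h hC (ψ := fun u => 2 * u * ψ u) ⟨ha, hb, hab, hκ, hκ1, tst_pol hψ hp1⟩
    (isSim_Xw a b) v w
  have t3 := pl_r h hC (ψ := fun u => 2 * u ^ 2 * ψ u) ⟨ha, hb, hab, hκ, hκ1, tst_pol hψ hp2⟩
    (isSim_const b) v w
  have t4 := h.mom a b κ 0 ψ v w ⟨ha, hb, hab, hκ, hκ1, hψ⟩
  have t5 := (t2.sub t3).add t4
  set α : ℂ := inner ℂ w (A (H846.Xw a b) v) + ((1 : ℝ) : ℂ) * inner ℂ w (C a v) with hα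
  set β : ℂ := inner ℂ w (A (fun _ => b) v) + ((0 : ℝ) : ℂ) * inner ℂ w (C a v) with hβ
  set γ : ℂ := inner ℂ w (K a v) with hγ
  have hci : ∀ {g : ℝ → ℝ}, Tst g → ∀ z : ℂ, Integrable fun u : ℝ => (g u : ℂ) * z := by
    intro g hg z
    have h2 : HasCompactSupport fun u : ℝ => ((g u : ℝ) : ℂ) :=
      hg.2.comp_left (g := fun r : ℝ => (r : ℂ)) (by simp)
    exact ((Complex.continuous_ofReal.comp hg.1.continuous).mul
      continuous_const).integrable_of_hasCompactSupport h2.mul_right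
  have i1 := hci hψ γ
  have i2 := hci (tst_pol hψ hp1) α
  have i3 := hci (tst_pol hψ hp2) β
  have e0 : ∀ u : ℝ, (ψ u : ℂ) * inner ℂ w
      (Q.U 1 GF.one (u • b) (K a (Q.U 1 GF.one (-(u • b)) v))) =
      (ψ u : ℂ) * γ - ((2 * u * ψ u : ℝ) : ℂ) * α + ((2 * u ^ 2 * ψ u : ℝ) : ℂ) * β := by
    intro u
    have k1 := htra a (u • b) v ha
    have k2 : A (XX a (u • b)) v = ((-2 * u : ℝ) : ℂ) • A (H846.Xw a b) v +
      ((2 * (u * u) : ℝ) : ℂ) • A (fun _ => b) v := H755.A_XXb h.toRep hb hab u v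
    have k3 : A (fun z => -(2 * GF.mdot a (u • b)) • z + (2 * GF.mdot (u • b) z) • a -
      (2 * GF.mdot a z) • (u • b) + cK a (u • b)) v = A (XX a (u • b)) v := rfl
    rw [k1, k3, k2, H755.md_smul, hab, mul_one, inner_sub_right, inner_add_right, inner_add_right,
      inner_smul_right, inner_smul_right, inner_smul_right, hα, hβ]
    push_cast
    ring
  have e1 : ∫ u : ℝ, (ψ u : ℂ) * inner ℂ w
      (Q.U 1 GF.one (u • b) (K a (Q.U 1 GF.one (-(u • b)) v))) =
      (∫ u : ℝ, (ψ u : ℂ)) * γ - (∫ u : ℝ, ((2 * u * ψ u : ℝ) : ℂ)) * α +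
        (∫ u : ℝ, ((2 * u ^ 2 * ψ u : ℝ) : ℂ)) * β := by
    simp only [e0]
    have k1 := integral_add (i1.sub i2) i3
    have k2 := integral_sub i1 i2
    simp only [Pi.sub_apply] at k1
    rw [k1, k2, integral_mul_const, integral_mul_const, integral_mul_const]
  rw [e1] at t5
  have e2 : (∫ u : ℝ, ((2 * u * ψ u : ℝ) : ℂ)) * α - (∫ u : ℝ, ((2 * u ^ 2 * ψ u : ℝ) : ℂ)) * β +
      ((∫ u : ℝ, (ψ u : ℂ)) * γ - (∫ u : ℝ, ((2 * u * ψ u : ℝ) : ℂ)) * α +
        (∫ u : ℝ, ((2 * u ^ 2 * ψ u : ℝ) : ℂ)) * β) = (∫ u : ℝ, (ψ u : ℂ)) * γ := by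
    ring
  rw [e2] at t5
  refine t5.congr' ?_
  filter_upwards [eventually_ge_atTop (1:ℝ)] with R hR
  rw [sm_cK hT ha.1 hb.1 hab hκ hψ hR v, inner_add_right, inner_sub_right]


end

end Vale.Agent.P352.GChg

namespace Vale.Agent.P352.H846.GC

section

open GF (Ix V Fn Fld bas eta o improve bar)
open H755 H496 H15 H246 H846
open H746 (Lf)
open SubConf (IsKil IsAdj)

variable {D : Type*} [NormedAddCommGroup D] [InnerProductSpace ℂ D]
variable {Q Q' : GF.Theory D} {T : Ix → Ix → GF.Fld D} {J : Ix → GF.Fld D}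
  {A : (V → V) → D → D} {K : V → D → D} {L B : GF.Fld D}

/-- **The commutator with the charge.** -/
theorem com_lim (hT : Q.IsStress T) (hJ : IsVirial Q T J) (h : NullCharges Q T J A K)
    (hn : NoFlux T J)
    (hlf : ∀ {a b : V}, IsNull a → IsNull b → GF.mdot a b = 1 → ∀ {ν : V → ℝ} {ψ : ℝ → ℝ}, Tst ν →
      (∀ᶠ x in 𝓝 (0 : V), ν x = 0) → Tst ψ → ∀ v w : D, Tendsto (fun R : ℝ => inner ℂ w
        (Lf J K a b (fun x => ((R ^ 2)⁻¹ * cut a b ν R x * ψ (GF.mdot a x) : ℝ)) v)) atTop (𝓝 0)) (hL : Q'.bose L)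
    (hLf : ∀ a b f v, NPr a b → GF.IsTest f → L f v = Lf J K a b f v)
    (ht : IsT Q' (improve T L)) (hB : Q'.fld B) {a b : V} (ha : IsNull a) (hb : IsNull b)
    (hab : GF.mdot a b = 1) {X : V → V} {c0 k : V} {r s r' : ℝ} {w0 : Ix → V}
    (hw : ∀ m n, eta n * w0 m n = -(eta m * w0 n m))
    (hX : ∀ x n, X x n = c0 n + r * x n + ∑ m, x m * w0 m n + 2 * GF.mdot k x * x n -
      GF.mdot x x * k n) (hk : k = s • a) (hX' : IsSim r' X ∨ X = cK a) {G : D → D}
    (hG : ∀ κ ψ, Adm a b κ ψ → ∀ v w, Tendsto (fun R => inner ℂ w (sm T (fun m n x =>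
      eta m * a m * (eta n * X x n) * ctf a b κ 0 ψ R x) v)) atTop
      (𝓝 ((∫ u, (ψ u : ℂ)) * inner ℂ w (G v)))) {f : Fn} (hf : H755.CS f) {g : V → ℝ}
    (hg : Ok (tsupport f) g) (v : D) :
    com (improve T L) (fun n x => X x n) g B f v = G (B f v) - B f (G v) := by
  have hfld : Q'.fld L := Q'.bose_fld _ hL
  -- the cutoff function
  obtain ⟨κ, hκ, hκ1⟩ : ∃ κ : V → ℝ, Tst κ ∧ ∀ᶠ x in 𝓝 (0 : V), κ x = 1 := by
    let f : ContDiffBump (0 : V) := ⟨1, 2, one_pos, one_lt_two⟩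
    exact ⟨f, ⟨f.contDiff, f.hasCompactSupport⟩, f.eventuallyEq_one⟩
  obtain ⟨α, hα, hα1⟩ := exists_prof
  obtain ⟨M1, hM1, hM1'⟩ := supp_bd hα
  obtain ⟨M4, hM4⟩ := hf.2.isCompact.isBounded.subset_closedBall (0 : V)
  obtain ⟨M, hMd⟩ : ∃ M, M = M1 + |M4| := ⟨_, rfl⟩
  have hM40 := abs_nonneg M4
  have hM : 0 ≤ M := by rw [hMd]; positivity
  have hαM : ∀ u, α u ≠ 0 → |u| ≤ M := fun u hu => (hM1' u hu).trans (by linarith)
  have hfM : ∀ y ∈ tsupport f, ∀ i, |y i| ≤ M := by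
    intro y hy i
    have h3 := hM4 hy
    rw [mem_closedBall_zero_iff] at h3
    have h4 := norm_le_pi_norm y i
    have h5 := le_abs_self M4
    rw [Real.norm_eq_abs] at h4
    linarith
  obtain ⟨u0, l, ν, hν, hν0, -, -, hev⟩ := exists_swi ha hb hab hκ hκ1
    (c := 3 * M + 1 + 1) (by linarith)
  obtain ⟨B', hB', hBB⟩ := Q'.adj B hB
  have hadj : ∀ u w : D, inner ℂ w (B f u) = inner ℂ (B' (bar f) w) u := by
    intro u w
    rw [← inner_conj_symm, hBB f u w hf.1, inner_conj_symm]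
  refine ext_inner_left ℂ fun w => ?_
  -- the limits
  have hadm : Adm a b κ (deriv (Ps u0)) := ⟨ha, hb, hab, hκ, hκ1, dPs_tst u0⟩
  have hint : (∫ u, ((deriv (Ps u0) u : ℝ) : ℂ)) = -1 := by
    rw [integral_complex_ofReal, dPs_int]
    simp
  have l1 : ∀ v w : D, Tendsto (fun R => inner ℂ w (sm T (F1 a b κ X (deriv (Ps u0)) R) v)) atTop
      (𝓝 (-inner ℂ w (G v))) := by
    intro v w
    have := hG κ _ hadm v w
    rw [hint, neg_one_mul] at this
    exact this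
  have l2 : ∀ v w : D, Tendsto (fun R => inner ℂ w (sm T (F2 a b κ ν X (pl u0 l) R) v)) atTop
      (𝓝 0) := fun v w => hn.T a b κ ν (pl u0 l) r' X v w ha hb hab hκ hν hν0 (pl_tst u0 l) hX'
  have l3 : ∀ v w : D, Tendsto (fun R => inner ℂ w
      (L (fun x => (Nr a b κ ν r s u0 l R x : ℂ)) v)) atTop (𝓝 0) := by
    intro v w
    have tA := pmul_tst hν (H148.tst_Da hκ a)
    have tB := pmul_tst hν (H148.tst_Lap hκ a b)
    have m1 := hlf ha hb hab tA (pmul_near (H148.Da a κ) hν0)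
      (psA_tst r s u0 l) v w
    have m2 := hlf ha hb hab tB (pmul_near (H148.Lap a b κ) hν0)
      (psB_tst r s u0 l) v w
    have m3 := m1.add m2
    rw [add_zero] at m3
    refine m3.congr' ?_
    filter_upwards [eventually_ge_atTop (1 : ℝ)] with R hR
    have p1 := prof_tst ha.1 hb.1 hab tA (psA_tst r s u0 l) hR
    have p2 := prof_tst ha.1 hb.1 hab tB (psB_tst r s u0 l) hR
    rw [← hLf a b _ v ⟨ha, hb, hab⟩ (tstIs p1), ← hLf a b _ v ⟨ha, hb, hab⟩ (tstIs p2),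
      ← inner_add_right, ← fld_add hfld p1 p2]
    rfl
  have lim : Tendsto (fun R => -((inner ℂ w (sm T (F1 a b κ X (deriv (Ps u0)) R) (B f v)) -
      inner ℂ (B' (bar f) w) (sm T (F1 a b κ X (deriv (Ps u0)) R) v)) +
      (inner ℂ w (sm T (F2 a b κ ν X (pl u0 l) R) (B f v)) -
        inner ℂ (B' (bar f) w) (sm T (F2 a b κ ν X (pl u0 l) R) v)) +
      (3 : ℂ) * (inner ℂ w (L (fun x => (Nr a b κ ν r s u0 l R x : ℂ)) (B f v)) -
        inner ℂ (B' (bar f) w) (L (fun x => (Nr a b κ ν r s u0 l R x : ℂ)) v)))) atTop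
      (𝓝 (-((-inner ℂ w (G (B f v)) - -inner ℂ (B' (bar f) w) (G v)) + (0 - 0) +
        3 * (0 - 0)))) :=
    (((l1 _ _).sub (l1 _ _)).add ((l2 _ _).sub (l2 _ _)) |>.add
      (((l3 _ _).sub (l3 _ _)).const_mul 3)).neg
  have hconst : Tendsto (fun _ : ℝ => inner ℂ w (com (improve T L) (fun n x => X x n) g B f v)) atTop
      (𝓝 (-((-inner ℂ w (G (B f v)) - -inner ℂ (B' (bar f) w) (G v)) + (0 - 0) +
        3 * (0 - 0)))) := by
    refine lim.congr' ?_
    filter_upwards [hev, eventually_ge_atTop (1 : ℝ)] with R hR hR1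
    rw [com_R hT hL ht hB ha hb hab hκ hν hw hX hk hf hM le_rfl
      (by linarith : 3 * M + 1 < 3 * M + 1 + 1) hfM hα hα1 hαM hR1 hR hg v]
    rw [inner_neg_right, inner_add_right, inner_add_right, inner_smul_right, inner_sub_right,
      inner_sub_right, inner_sub_right, hadj, hadj, hadj]
  have := tendsto_nhds_unique tendsto_const_nhds hconst
  rw [this, inner_sub_right, hadj]
  ring

lemma chg_of (hT : Q.IsStress T) (hJ : IsVirial Q T J) (h : NullCharges Q T J A K)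
    (hn : NoFlux T J)
    (hlf : ∀ {a b : V}, IsNull a → IsNull b → GF.mdot a b = 1 → ∀ {ν : V → ℝ} {ψ : ℝ → ℝ}, Tst ν →
      (∀ᶠ x in 𝓝 (0 : V), ν x = 0) → Tst ψ → ∀ v w : D, Tendsto (fun R : ℝ => inner ℂ w
        (Lf J K a b (fun x => ((R ^ 2)⁻¹ * cut a b ν R x * ψ (GF.mdot a x) : ℝ)) v)) atTop (𝓝 0)) (hL : Q'.bose L)
    (hLf : ∀ a b f v, NPr a b → GF.IsTest f → L f v = Lf J K a b f v)
    (ht : IsT Q' (improve T L)) {a b : V} (ha : IsNull a) (hb : IsNull b)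
    (hab : GF.mdot a b = 1) {X : V → V} {c0 k : V} {r s r' : ℝ} {w0 : Ix → V}
    (hw : ∀ m n, eta n * w0 m n = -(eta m * w0 n m))
    (hX : ∀ x n, X x n = c0 n + r * x n + ∑ m, x m * w0 m n + 2 * GF.mdot k x * x n -
      GF.mdot x x * k n) (hk : k = s • a) (hX' : IsSim r' X ∨ X = cK a) {G : D → D}
    (hG : ∀ κ ψ, Adm a b κ ψ → ∀ v w, Tendsto (fun R => inner ℂ w (sm T (fun m n x =>
      eta m * a m * (eta n * X x n) * ctf a b κ 0 ψ R x) v)) atTop
      (𝓝 ((∫ u, (ψ u : ℂ)) * inner ℂ w (G v)))) : Chg Q' (improve T L) X G := by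
  intro F B f hF hB hf hfc
  filter_upwards [ok_cutoff hF (S := tsupport f) hfc.isCompact] with R hR v
  obtain ⟨g, hg, hFg⟩ := hR
  have key := com_lim hT hJ h hn hlf hL hLf ht hB ha hb hab hw hX hk hX' hG ⟨hf, hfc⟩ hg v
  rw [← key]
  have e : ∀ n, (fun x => ((eta n * X x n : ℝ) : ℂ) * F R x) =
      fun x => ((eta n * X x n * g x : ℝ) : ℂ) := by
    intro n
    rw [hFg]
    funext x
    push_cast
    ring
  unfold com
  simp only [e]


/-- **The charges.** -/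
theorem chg_cK (hT : Q.IsStress T) (hJ : IsVirial Q T J) (h : NullCharges Q T J A K)
    (hn : NoFlux T J) {C : V → D → D} (hC : GMain.JLim J C)
    (htra : ∀ a x v, IsNull a → Q.U 1 GF.one x (K a (Q.U 1 GF.one (-x) v)) = K a v +
      A (fun z => -(2 * GF.mdot a x) • z + (2 * GF.mdot x z) • a - (2 * GF.mdot a z) • x +
        cK a x) v - ((2 * GF.mdot a x : ℝ) : ℂ) • C a v) (hL : Q'.bose L)
    (hLf : ∀ a b f v, NPr a b → GF.IsTest f → L f v = Lf J K a b f v)
    (ht : IsT Q' (improve T L)) {a : V} (ha : IsNull a) : Chg Q' (improve T L) (cK a) (K a) := by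
  obtain ⟨b, hb, hab⟩ := H755.exists_dual ha
  refine chg_of hT hJ h hn (fun {a b} ha hb hab {ν ψ} hν hν0 hψ v w => ?_) hL hLf ht ha hb hab
    (X := cK a) (c0 := 0) (k := a) (r := 0) (s := 1) (r' := 0) (w0 := 0) ?_ ?_ ?_ (Or.inr rfl) ?_
  · have hN : H993.NF J a b := fun κ ν ψ v w hκ hν hν0 hψ =>
      hn.J a b κ ν ψ v w ha hb hab hκ hν hν0 hψ
    exact GChg.lf0 ha.1 hb.1 hab hJ (fun a v w ha => nc_symm hT h ha v w) hN (GChg.vf_of hJ hC ha hb hab)
      ha hb hν hν0 hψ v w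
  · intro m n
    simp
  · intro x n
    unfold cK
    simp only [Pi.sub_apply, Pi.smul_apply, smul_eq_mul, Pi.zero_apply]
    simp
  · simp
  · intro κ ψ hadm v w
    exact GChg.pl_cK hT h hC htra hadm v w

end

end Vale.Agent.P352.H846.GC

end
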