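import Vale.Agent.P352.H15.NPDefs

/-!
# Special conformal generators up to charges that commute with the fields
-/

noncomputable section

namespace Vale.Agent.P352.G

open GF H246 H496 H755 H15

variable {D : Type*} [NormedAddCommGroup D] [InnerProductSpace ℂ D]

/-- The symmetric operators `K a` obey the commutation relations of special conformal generators
with the similitudes up to charges `C a` that annihilate the vacuum and commute with `J`, with the
generators `A X` and with the operators `K b`. -/
structure NGen (Q : Theory D) (J : Ix → Fld D) (A : (V → V) → D → D) (K : V → D → D)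
    (C : V → D → D) : Prop extends Rep Q A where
  symm : ∀ a v w, IsNull a → inner ℂ (K a v) w = inner ℂ v (K a w)
  cov : ∀ s L r a b v, 0 < s → 0 < r → IsLor L → IsNull a → IsNull b → sim 1 L 0 a = r • b →
    Q.U s L 0 (K a v) = ((r / s : ℝ) : ℂ) • K b (Q.U s L 0 v)
  tra : ∀ a x v, IsNull a → Q.U 1 GF.one x (K a (Q.U 1 GF.one (-x) v)) = K a v +
    A (fun z => -(2 * mdot a x) • z + (2 * mdot x z) • a - (2 * mdot a z) • x + cK a x) v -
      ((2 * mdot a x : ℝ) : ℂ) • C a v
  comJ : ∀ a m f v, IsNull a → IsTest f → C a (J m f v) = J m f (C a v)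
  comK : ∀ a b v, IsNull a → IsNull b → C a (K b v) = K b (C a v)
  comA : ∀ a r X v, IsNull a → IsSim r X → C a (A X v) = A X (C a v)
  vac : ∀ a, IsNull a → C a Q.vac = 0
  symC : ∀ a v w, IsNull a → inner ℂ (C a v) w = inner ℂ v (C a w)

section

variable {Q : Theory D} {J : Ix → Fld D} {A : (V → V) → D → D} {K C : V → D → D}

lemma NGen.C_add (h : NGen Q J A K C) {a : V} (ha : IsNull a) (v w : D) :
    C a (v + w) = C a v + C a w := by
  refine ext_inner_left ℂ fun z => ?_
  rw [← h.symC a _ _ ha, inner_add_right, inner_add_right, ← h.symC a _ _ ha, ← h.symC a _ _ ha]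

lemma NGen.C_smul (h : NGen Q J A K C) {a : V} (ha : IsNull a) (c : ℂ) (v : D) :
    C a (c • v) = c • C a v := by
  refine ext_inner_left ℂ fun z => ?_
  rw [← h.symC a _ _ ha, inner_smul_right, inner_smul_right, ← h.symC a _ _ ha]

lemma NGen.C_zero (h : NGen Q J A K C) {a : V} (ha : IsNull a) : C a 0 = 0 := by
  have h1 := h.C_smul ha 0 0
  rwa [zero_smul, zero_smul] at h1

lemma NGen.C_sum (h : NGen Q J A K C) {a : V} (ha : IsNull a) {ι : Type*} (s : Finset ι)
    (v : ι → D) : C a (∑ i ∈ s, v i) = ∑ i ∈ s, C a (v i) := by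
  classical
  induction s using Finset.induction_on with
  | empty => simpa using h.C_zero ha
  | insert i s hi ih => rw [Finset.sum_insert hi, Finset.sum_insert hi, h.C_add ha, ih]

/-- vectors annihilated by the charges -/
def Ker (C : V → D → D) (v : D) : Prop := ∀ a, IsNull a → C a v = 0

lemma NGen.ker_vac (h : NGen Q J A K C) : Ker C Q.vac := fun a ha => h.vac a ha

lemma NGen.ker_add (h : NGen Q J A K C) {v w : D} (hv : Ker C v) (hw : Ker C w) :
    Ker C (v + w) := fun a ha => by rw [h.C_add ha, hv a ha, hw a ha, add_zero]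

lemma NGen.ker_smul (h : NGen Q J A K C) (c : ℂ) {v : D} (hv : Ker C v) :
    Ker C (c • v) := fun a ha => by rw [h.C_smul ha, hv a ha, smul_zero]

lemma NGen.ker_sub (h : NGen Q J A K C) {v w : D} (hv : Ker C v) (hw : Ker C w) :
    Ker C (v - w) := by
  have h1 := h.ker_add hv (h.ker_smul (-1) hw)
  rwa [neg_one_smul, ← sub_eq_add_neg] at h1

lemma NGen.ker_sum (h : NGen Q J A K C) {ι : Type*} (s : Finset ι) {v : ι → D}
    (hv : ∀ i ∈ s, Ker C (v i)) : Ker C (∑ i ∈ s, v i) := fun a ha => by
  rw [h.C_sum ha]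
  exact Finset.sum_eq_zero fun i hi => hv i hi a ha

lemma NGen.ker_K (h : NGen Q J A K C) {b : V} (hb : IsNull b) {v : D} (hv : Ker C v) :
    Ker C (K b v) := fun a ha => by
  have hK0 : K b 0 = 0 := by
    refine ext_inner_left ℂ fun z => ?_
    rw [← h.symm b _ _ hb, inner_zero_right, inner_zero_right]
  rw [h.comK a b v ha hb, hv a ha, hK0]

end

end Vale.Agent.P352.G

end
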