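import Vale.Agent.P352.G.Top3
import Vale.Agent.P352.H121.Vir
import Vale.Agent.P352.H746.Iff2

/-!
# Conformal invariance from the on-shell dilaton constraint, if the null charge of the virial
current commutes with the stress tensor and the virial current
-/

set_option linter.all false

noncomputable section

open MeasureTheory Filter Topology SchwartzMap
open scoped SchwartzMap ComplexConjugate ContDiff

namespace Vale.Agent.P352.GMain

open GF (Ix V Fn Fld Theory Sch IsLor bas eta o sim pd tr improve ev bar Sep IsTest)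
open H246 H496 H755 H15 H846
open H746 (jg_tst tg_tst adm_of A_vac A_symm)
open G (NGen)

variable {D : Type*} [NormedAddCommGroup D] [InnerProductSpace ℂ D]
variable {Q : GF.Theory D} {T : Ix → Ix → GF.Fld D} {J : Ix → GF.Fld D}
  {A : (V → V) → D → D} {K C : V → D → D}

/-- the null charges of `J` -/
def JLim (J : Ix → Fld D) (C : V → D → D) : Prop :=
  ∀ a b κ y ψ v w, Adm a b κ ψ → Tendsto (fun R => inner ℂ w
      (∑ m, J m (fun x => (eta m * a m * ctf a b κ y ψ R x : ℝ)) v)) atTop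
      (𝓝 ((∫ u, (ψ u : ℂ)) * inner ℂ w (C a v)))

lemma exists_one : ∃ ψ : ℝ → ℝ, Tst ψ ∧ ∫ u, (ψ u : ℂ) = 1 := by
  let f : ContDiffBump (0 : ℝ) := ⟨1, 2, one_pos, one_lt_two⟩
  refine ⟨f.normed volume, ⟨f.contDiff_normed, f.hasCompactSupport_normed⟩, ?_⟩
  have h1 : ∫ u, ((f.normed volume u : ℝ) : ℂ) = ((∫ u, f.normed volume u : ℝ) : ℂ) :=
    integral_ofReal
  rw [h1, f.integral_normed, Complex.ofReal_one]

lemma symC (hJ : IsVirial Q T J) (hC : JLim J C) {a : V} (ha : IsNull a) (v w : D) :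
    inner ℂ (C a v) w = inner ℂ v (C a w) := by
  obtain ⟨b, hb, hab⟩ := H755.exists_dual ha
  obtain ⟨κ, hκ, hκ1⟩ := exists_kp
  obtain ⟨ψ, hψ, hψ1⟩ := exists_one
  have hA : Adm a b κ ψ := ⟨ha, hb, hab, hκ, hκ1, hψ⟩
  have h1 := hC a b κ 0 ψ w v hA
  have h2 := (Complex.continuous_conj.tendsto _).comp (hC a b κ 0 ψ v w hA)
  rw [hψ1, one_mul] at h1 h2
  rw [inner_conj_symm] at h2
  refine tendsto_nhds_unique h2 (h1.congr' ?_)
  filter_upwards [eventually_ge_atTop (1:ℝ)] with R hR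
  simp only [Function.comp_apply]
  rw [inner_conj_symm, sum_inner, inner_sum]
  refine Finset.sum_congr rfl fun m _ => ?_
  have h3 := hJ.herm m (fun x => ((eta m * a m * ctf a b κ 0 ψ R x : ℝ) : ℂ)) v w
    (jg_tst hA hR _).isTest
  have h4 : bar (fun x => ((eta m * a m * ctf a b κ 0 ψ R x : ℝ) : ℂ)) =
      fun x => ((eta m * a m * ctf a b κ 0 ψ R x : ℝ) : ℂ) := by
    funext x
    exact Complex.conj_ofReal _
  rw [h3, h4]

section

variable (hs : ∀ a v w, IsNull a → inner ℂ (C a v) w = inner ℂ v (C a w))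
include hs

lemma C_add {a : V} (ha : IsNull a) (v w : D) : C a (v + w) = C a v + C a w := by
  refine ext_inner_left ℂ fun z => ?_
  rw [← hs a _ _ ha, inner_add_right, inner_add_right, ← hs a _ _ ha, ← hs a _ _ ha]

lemma C_smul {a : V} (ha : IsNull a) (c : ℂ) (v : D) : C a (c • v) = c • C a v := by
  refine ext_inner_left ℂ fun z => ?_
  rw [← hs a _ _ ha, inner_smul_right, inner_smul_right, ← hs a _ _ ha]

lemma C_zero {a : V} (ha : IsNull a) : C a 0 = 0 := by
  have h1 := C_smul hs ha 0 0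
  rwa [zero_smul, zero_smul] at h1

lemma C_sub {a : V} (ha : IsNull a) (v w : D) : C a (v - w) = C a v - C a w := by
  rw [sub_eq_add_neg, C_add hs ha, ← neg_one_smul ℂ w, C_smul hs ha, neg_one_smul,
    ← sub_eq_add_neg]

lemma C_sum {a : V} (ha : IsNull a) {ι : Type*} (s : Finset ι) (v : ι → D) :
    C a (∑ i ∈ s, v i) = ∑ i ∈ s, C a (v i) := by
  classical
  induction s using Finset.induction_on with
  | empty => simpa using C_zero hs ha
  | insert i s hi ih => rw [Finset.sum_insert hi, Finset.sum_insert hi, C_add hs ha, ih]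

lemma C_sm (hcT : ∀ a m n f v, IsNull a → GF.IsTest f → C a (T m n f v) = T m n f (C a v)) {a : V}
    (ha : IsNull a) {F : Ix → Ix → V → ℝ} (hF : ∀ m n, Tst (F m n)) (v : D) :
    C a (sm T F v) = sm T F (C a v) := by
  unfold sm
  rw [C_sum hs ha]
  refine Finset.sum_congr rfl fun m _ => ?_
  rw [C_sum hs ha]
  refine Finset.sum_congr rfl fun n _ => ?_
  exact hcT a m n _ v ha (hF m n).isTest

variable (hcT : ∀ a m n f v, IsNull a → GF.IsTest f → C a (T m n f v) = T m n f (C a v))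
include hcT

/-- charges that commute with `T` commute with the second moments -/
lemma comK (h : NullCharges Q T J A K) {a b : V} (ha : IsNull a) (hb : IsNull b) (v : D) :
    C a (K b v) = K b (C a v) := by
  obtain ⟨b', hb', hbb⟩ := H755.exists_dual hb
  obtain ⟨κ, hκ, hκ1⟩ := exists_kp
  refine ext_inner_left ℂ fun w => ?_
  have key : (fun u : ℝ => inner ℂ (C a w) (Q.U 1 GF.one (u • b')
      (K b (Q.U 1 GF.one (-(u • b')) v)))) =
      fun u : ℝ => inner ℂ w (Q.U 1 GF.one (u • b') (K b (Q.U 1 GF.one (-(u • b')) (C a v)))) := by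
    refine fun_uniqueR (h.cont b b' v (C a w) hb hb') (h.cont b b' (C a v) w hb hb')
      fun ψ hψ => ?_
    have hA : Adm b b' κ ψ := ⟨hb, hb', hbb, hκ, hκ1, hψ⟩
    have h1 := h.mom b b' κ 0 ψ v (C a w) hA
    have h2 := h.mom b b' κ 0 ψ (C a v) w hA
    refine tendsto_nhds_unique h1 (h2.congr' ?_)
    filter_upwards [eventually_ge_atTop (1:ℝ)] with R hR
    have hF : ∀ m n, Tst (fun x => eta m * b m * (eta n * b n) * H15.sq b b' x *
        ctf b b' κ 0 ψ R x) := fun m n =>
      H846.ctf_tst hb.1 hb'.1 hbb hκ hψ hR (contDiff_const.mul (H846.contDiff_sq b b'))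
    rw [← C_sm hs hcT ha hF v, hs a _ _ ha]
  have h0 := congrFun key 0
  simp only [zero_smul, neg_zero] at h0
  rw [U0, U0, U0, U0] at h0
  rw [← hs a _ _ ha]
  exact h0

/-- charges that commute with `T` and `J` commute with the generators of the similitudes -/
lemma comA (hJ : IsVirial Q T J)
    (hcJ : ∀ a m f v, IsNull a → GF.IsTest f → C a (J m f v) = J m f (C a v))
    (h : NullCharges Q T J A K) {a : V} (ha : IsNull a) {r : ℝ} {X : V → V} (hX : IsSim r X)
    (v : D) : C a (A X v) = A X (C a v) := by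
  obtain ⟨b', hb', hbb⟩ := H755.exists_dual ha
  obtain ⟨κ, hκ, hκ1⟩ := exists_kp
  obtain ⟨ψ, hψ, hψ1⟩ := exists_one
  refine ext_inner_left ℂ fun w => ?_
  have hA : Adm a b' κ ψ := ⟨ha, hb', hbb, hκ, hκ1, hψ⟩
  have h1 := h.gen a b' κ 0 ψ r X v (C a w) hA hX
  have h2 := h.gen a b' κ 0 ψ r X (C a v) w hA hX
  rw [hψ1, one_mul] at h1 h2
  rw [← hs a _ _ ha]
  refine tendsto_nhds_unique h1 (h2.congr' ?_)
  filter_upwards [eventually_ge_atTop (1:ℝ)] with R hR
  have hF : ∀ m n, Tst (fun x => eta m * a m * (eta n * X x n) * ctf a b' κ 0 ψ R x) := fun m n =>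
    H846.ctf_tst ha.1 hb'.1 hbb hκ hψ hR
      (contDiff_const.mul (contDiff_const.mul (H755.contDiff_sim hX n)))
  have e1 : C a (∑ m, (r : ℂ) • J m (fun x => ((eta m * a m * ctf a b' κ 0 ψ R x : ℝ) : ℂ)) v) =
      ∑ m, (r : ℂ) • J m (fun x => ((eta m * a m * ctf a b' κ 0 ψ R x : ℝ) : ℂ)) (C a v) := by
    rw [C_sum hs ha]
    refine Finset.sum_congr rfl fun m _ => ?_
    rw [C_smul hs ha, hcJ a m _ v ha (jg_tst hA hR _).isTest]
  rw [← C_sm hs hcT ha hF v, ← e1, ← C_sub hs ha, hs a _ _ ha]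

end

lemma K_vac (hT : Q.IsStress T) (h : NullCharges Q T J A K) {a : V} (ha : IsNull a) :
    K a Q.vac = 0 := by
  have h1 := nc_cov hT h (s := 2) (r := 1) (L := GF.one) (a := a) (b := a) Q.vac two_pos one_pos
    isLor_one ha ha (by
      funext n
      simp [sim, GF.one, bas])
  rw [Q.U_vac 2 GF.one 0 two_pos isLor_one] at h1
  have h2 := Q.U_inner 2 GF.one 0 (K a Q.vac) (K a Q.vac) two_pos isLor_one
  rw [h1, inner_smul_left, inner_smul_right] at h2
  have h3 : inner ℂ (K a Q.vac) (K a Q.vac) = 0 := by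
    have h4 : (starRingEnd ℂ) (((1 / 2 : ℝ)) : ℂ) = ((1 / 2 : ℝ) : ℂ) := Complex.conj_ofReal _
    rw [h4] at h2
    push_cast at h2
    linear_combination (-4 / 3 : ℂ) * h2
  exact inner_self_eq_zero.1 h3

/-- **Special conformal generators up to neutral charges.** -/
theorem ngen (hT : Q.IsStress T) (hJ : IsVirial Q T J) (h : NullCharges Q T J A K)
    (hC : JLim J C)
    (htra : ∀ a x v, IsNull a → Q.U 1 GF.one x (K a (Q.U 1 GF.one (-x) v)) = K a v +
      A (fun z => -(2 * GF.mdot a x) • z + (2 * GF.mdot x z) • a - (2 * GF.mdot a z) • x +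
        cK a x) v - ((2 * GF.mdot a x : ℝ) : ℂ) • C a v)
    (hcT : ∀ a m n f v, IsNull a → GF.IsTest f → C a (T m n f v) = T m n f (C a v))
    (hcJ : ∀ a m f v, IsNull a → GF.IsTest f → C a (J m f v) = J m f (C a v)) :
    NGen Q J A K C where
  toRep := h.toRep
  symm a v w ha := nc_symm hT h ha v w
  cov s L r a b v hs hr hL ha hb hab := nc_cov hT h v hs hr hL ha hb hab
  tra := htra
  comJ := hcJ
  comK a b v ha hb := comK (fun _ v w ha => symC hJ hC ha v w) hcT h ha hb v
  comA a r X v ha hX := comA (fun _ v w ha => symC hJ hC ha v w) hcT hJ hcJ h ha hX v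
  vac a ha := by
    obtain ⟨b, hb, hab⟩ := H755.exists_dual ha
    have h1 := htra a b Q.vac ha
    rw [Q.U_vac 1 GF.one (-b) one_pos isLor_one, K_vac hT h ha, hab] at h1
    have h2 : A (XX a b) Q.vac = 0 := A_vac h.toRep (XX_sim a b)
    have h3 : A (fun z => -(2 * (1:ℝ)) • z + (2 * GF.mdot b z) • a - (2 * GF.mdot a z) • b +
        cK a b) Q.vac = 0 := by
      rw [← hab]
      exact h2
    have h4 : Q.U 1 GF.one b (0 : D) = 0 := by
      have := U_smul (Q := Q) one_pos isLor_one b 0 (0 : D)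
      rwa [zero_smul, zero_smul] at this
    rw [h3, h4, add_zero, zero_sub] at h1
    have h5 := neg_eq_zero.1 h1.symm
    have h6 : (((2 * (1:ℝ) : ℝ)) : ℂ) ≠ 0 := by norm_num
    exact (smul_eq_zero.1 h5).resolve_left h6
  symC a v w ha := symC hJ hC ha v w

/-- **Conformal invariance from the on-shell dilaton constraint.** -/
theorem main_neutral (hT : Q.IsStress T) (hJ : IsVirial Q T J) (h : NullCharges Q T J A K)
    (ht : H121.TrNull T) : ∃ C : V → D → D, JLim J C ∧
      (ConfGen Q A K ↔ ∀ a v, IsNull a → C a v = 0) ∧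
      ((∀ a m n f v, IsNull a → GF.IsTest f → C a (T m n f v) = T m n f (C a v)) →
        (∀ a m f v, IsNull a → GF.IsTest f → C a (J m f v) = J m f (C a v)) →
        ∃ L : Fld D, ∀ Q₁ : Theory D, IsEnl Q Q₁ → ∃ Q₂ : Theory D, IsEnl Q₁ Q₂ ∧
          Q₂.IsScalar L 2 ∧ Q₂.IsStress (improve T L) ∧ IsImpr Q₂ T (improve T L) ∧
          ConfAct Q₂ (improve T L)) := by
  obtain ⟨C, h1, h2, h3⟩ := H121.charge hT hJ h ht
  refine ⟨C, h1, h3, fun hcT hcJ => ?_⟩
  exact G.H731.main_conf hT hJ (ngen hT hJ h h1 h2 hcT hcJ) (Or.inl h.mom)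

end Vale.Agent.P352.GMain

end
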